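import Vale.Agent.P218UZ.Flat
import Vale.Agent.P218UM.Iface

/-! Selection of a sequence of times along which the bad points have small mass. -/

open MeasureTheory Set Filter Topology Metric
open scoped ENNReal NNReal RealInnerProductSpace ContDiff

namespace Vale.Agent.P218UZ

open Vale.Agent.P218 (WeakTendsto)
open Vale.Agent.P218UA Vale.Agent.P218UM

lemma meas_le_of_weak {μ : ℕ → Measure E3} {ν : Measure E3} [IsLocallyFiniteMeasure ν]
    (h : WeakTendsto μ ν) {K U : Set E3} (hK : IsCompact K) (hU : IsOpen U) (hKU : K ⊆ U) {δ : ℝ}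
    (hδ : 0 ≤ δ) (hμ : ∀ᶠ i in atTop, μ i U ≤ ENNReal.ofReal δ) : ν K ≤ ENNReal.ofReal δ := by
  obtain ⟨f, h1, h2, h3, h4⟩ := exists_continuousMap_one_of_isCompact_subset_isOpen hK hU hKU
  have e : ∀ m : Measure E3, ∫ x, f x ∂m = (∫⁻ x, ENNReal.ofReal (f x) ∂m).toReal := fun m =>
    integral_eq_lintegral_of_nonneg_ae (Eventually.of_forall fun x => (h4 x).1)
      f.continuous.aestronglyMeasurable
  have h5 : ∫ x, f x ∂ν ≤ δ := by
    refine le_of_tendsto (h f f.continuous h2) (hμ.mono fun i hi => ?_)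
    rw [e]
    refine ENNReal.toReal_le_of_le_ofReal hδ (le_trans ?_ hi)
    rw [← lintegral_indicator_one hU.measurableSet]
    refine lintegral_mono fun x => ?_
    by_cases hx : x ∈ U
    · rw [indicator_of_mem hx]
      exact ENNReal.ofReal_le_one.2 (h4 x).2
    · simp [image_eq_zero_of_notMem_tsupport fun h' => hx (h3 h')]
  refine le_trans ?_ (ENNReal.ofReal_le_ofReal h5)
  rw [ofReal_integral_eq_lintegral_ofReal (f.continuous.integrable_of_hasCompactSupport h2)
    (Eventually.of_forall fun x => (h4 x).1), ← lintegral_indicator_one hK.measurableSet]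
  refine lintegral_mono fun x => ?_
  by_cases hx : x ∈ K
  · simp [h1 hx, hx]
  · simp [hx]

lemma lint_log {t : ℝ} (ht : t < 0) (m : ℕ) :
    ∫⁻ s in Ioo (t / 2) (t / 2 ^ (m + 1)), ENNReal.ofReal (-s)⁻¹ = ENNReal.ofReal (m * Real.log 2) := by
  have h1 : t / 2 ^ (m + 1) < 0 := div_neg_of_neg_of_pos ht (by positivity)
  have h2 : t / 2 ≤ t / 2 ^ (m + 1) := by
    rw [← neg_le_neg_iff, ← neg_div, ← neg_div]
    exact div_le_div_of_nonneg_left (by linarith) two_pos (le_self_pow₀ one_le_two (by omega))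
  have h3 : IntervalIntegrable (fun s : ℝ => s⁻¹) volume (t / 2) (t / 2 ^ (m + 1)) :=
    intervalIntegral.intervalIntegrable_inv (fun s hs => by
      rw [uIcc_of_le h2] at hs
      exact (hs.2.trans_lt h1).ne) continuousOn_id
  simp only [inv_neg]
  rw [← ofReal_integral_eq_lintegral_ofReal (f := fun s : ℝ => -s⁻¹)
    (h3.neg.1.mono_set Ioo_subset_Ioc_self)
    (ae_restrict_of_forall_mem measurableSet_Ioo fun s hs =>
      neg_nonneg.2 (inv_nonpos.2 (hs.2.trans h1).le)), ← integral_Ioc_eq_integral_Ioo,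
    ← intervalIntegral.integral_of_le h2, intervalIntegral.integral_neg,
    integral_inv_of_neg (by linarith) h1, ← Real.log_inv, ← Real.log_pow]
  congr 2
  have := ht.ne
  field_simp
  ring

/-- a time at which finitely many functions are small -/
lemma exists_time {f : ℕ → ℝ → ℝ≥0∞} {a : ℝ} (hf : ∀ j, AEMeasurable (f j) (volume.restrict (Ioo a 0)))
    (h : ∀ j : ℕ, ∀ᶠ t₀ in 𝓝[<] (0 : ℝ), ∃ K : ℝ, ∀ m : ℕ,
      ∫⁻ t in Ioo (t₀ / 2) (t₀ / 2 ^ m), f j t * ENNReal.ofReal (1 / t ^ 2)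
        ≤ ENNReal.ofReal (K + (1 / 2) ^ j * (1 / 2) ^ j / 4 * m))
    (J : ℕ) {b : ℝ} (hab : a ≤ b) (hb : b < 0) :
    ∃ t ∈ Ioo b 0, ∀ j < J, f j t ≤ ENNReal.ofReal ((1 / 2) ^ j * -t) := by
  by_contra hne
  push Not at hne
  obtain ⟨t₀, h1, h2⟩ := (((eventually_all_finset (Finset.range J)).2 fun j _ => h j).and
    (Ioo_mem_nhdsLT hb)).exists
  choose! K hK using h1
  have key : ∀ m : ℕ, m * Real.log 2 ≤ ∑ j ∈ Finset.range J, (2 ^ j * |K j|) + (m + 1) / 2 := by
    intro m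
    have hs : Ioo (t₀ / 2) (t₀ / 2 ^ (m + 1)) ⊆ Ioo b 0 := Ioo_subset_Ioo (by linarith [h2.1, h2.2])
      (div_nonpos_of_nonpos_of_nonneg h2.2.le (by positivity))
    have h3 : ∫⁻ s in Ioo (t₀ / 2) (t₀ / 2 ^ (m + 1)), ENNReal.ofReal (-s)⁻¹
        ≤ ∫⁻ s in Ioo (t₀ / 2) (t₀ / 2 ^ (m + 1)), ∑ j ∈ Finset.range J,
          ENNReal.ofReal (2 ^ j) * (f j s * ENNReal.ofReal (1 / s ^ 2)) := by
      refine setLIntegral_mono' measurableSet_Ioo fun s hs' => ?_
      obtain ⟨j, hj, h4⟩ := hne s (hs hs')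
      refine le_trans ?_ (Finset.single_le_sum (f := fun j =>
        ENNReal.ofReal (2 ^ j) * (f j s * ENNReal.ofReal (1 / s ^ 2))) (fun _ _ => zero_le)
        (Finset.mem_range.2 hj))
      refine le_trans (le_of_eq ?_) (mul_le_mul_right (mul_le_mul_left h4.le _) _)
      have h5 := (hs hs').2
      rw [← ENNReal.ofReal_mul (mul_nonneg (by positivity) (by linarith)),
        ← ENNReal.ofReal_mul (by positivity)]
      congr 1
      have := h5.ne
      rw [one_div, inv_pow]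
      field_simp
    rw [lint_log h2.2, lintegral_finsetSum' _ (f := fun j s =>
      ENNReal.ofReal (2 ^ j) * (f j s * ENNReal.ofReal (1 / s ^ 2))) fun j _ =>
      (((hf j).mono_set (hs.trans (Ioo_subset_Ioo_left hab))).mul (by fun_prop)).const_mul _] at h3
    have h4 : ∀ j ∈ Finset.range J, ∫⁻ s in Ioo (t₀ / 2) (t₀ / 2 ^ (m + 1)),
        ENNReal.ofReal (2 ^ j) * (f j s * ENNReal.ofReal (1 / s ^ 2))
          ≤ ENNReal.ofReal (2 ^ j * |K j| + (1 / 2) ^ j * ((m + 1) / 4)) := fun j hj => by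
      rw [lintegral_const_mul' _ _ ENNReal.ofReal_ne_top]
      refine (mul_le_mul_right (hK j hj (m + 1)) _).trans ?_
      rw [← ENNReal.ofReal_mul (by positivity)]
      refine ENNReal.ofReal_le_ofReal ?_
      have e : (2 : ℝ) ^ j * (1 / 2) ^ j = 1 := by rw [← mul_pow]; norm_num
      have := mul_le_mul_of_nonneg_left (le_abs_self (K j)) (show (0 : ℝ) ≤ 2 ^ j by positivity)
      push_cast
      linear_combination this + (1 / 2) ^ j * ((m : ℝ) + 1) / 4 * e
    have h5 := h3.trans (Finset.sum_le_sum h4)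
    rw [← ENNReal.ofReal_sum_of_nonneg fun _ _ => by positivity, ENNReal.ofReal_le_ofReal_iff
      (Finset.sum_nonneg fun _ _ => by positivity), Finset.sum_add_distrib, ← Finset.sum_mul] at h5
    have h6 := mul_le_mul_of_nonneg_right (sum_geometric_two_le J)
      (show (0 : ℝ) ≤ (m + 1) / 4 by positivity)
    linarith
  obtain ⟨m, hm⟩ := exists_nat_gt (10 * (∑ j ∈ Finset.range J, (2 ^ j * |K j|) + 1))
  have := key m
  nlinarith [Real.log_two_gt_d9, m.cast_nonneg (α := ℝ)]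

lemma reg_resc {w : ℝ → E3 → ℝ} {s t θ r : ℝ} (hs : 0 < s) {x : E3}
    (h : Reg (w (s ^ 2 * t)) θ (s • x) (s * r)) : Reg (resc w s t) θ x r := by
  obtain ⟨n, hn, h⟩ := h
  have hb : ∀ z ∈ ball x r, s • z ∈ ball (s • x) (s * r) := fun z hz => by
    rw [mem_ball, dist_smul₀, Real.norm_eq_abs, abs_of_pos hs]
    exact mul_lt_mul_of_pos_left hz hs
  refine ⟨n, hn, fun z hz z' hz' h1 h2 => ?_⟩
  have := h _ (hb z hz) _ (hb z' hz') ((div_eq_zero_iff.1 h1).resolve_right hs.ne')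
    ((div_eq_zero_iff.1 h2).resolve_right hs.ne')
  rw [← smul_sub, real_inner_smul_left, abs_mul, norm_smul, Real.norm_eq_abs, abs_of_pos hs,
    mul_left_comm] at this
  exact le_of_mul_le_mul_left this hs

lemma resc_resc (w : ℝ → E3 → ℝ) (c s : ℝ) : resc (resc w c) s = resc w (c * s) := by
  ext t x
  simp only [resc, mul_pow, smul_smul, div_div, mul_assoc]

lemma mk_near {ν : Measure E3} {A r : ℝ} (hν : AR ν A) (hA : 0 ≤ A) (hr : 0 < r) {x z : E3}
    (h : 19 / 10 ≤ mk ν z r) (hd : ‖x - z‖ < r / (100 * A + 1)) : 79 / 50 ≤ mk ν x r := by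
  rw [lt_div_iff₀ (by positivity)] at hd
  have h0 := mul_nonneg hA (norm_nonneg (x - z))
  have h4 := abs_le.1 (abs_mk_sub_le hν hA hr (x := x) (x' := z) (by linarith))
  have h5 : 32 * A * (‖x - z‖ / r) ≤ 32 / 100 := by
    rw [← mul_div_assoc, div_le_iff₀ hr]
    linarith [norm_nonneg (x - z)]
  linarith [h4.1]

theorem m1b' (h1 : Calc) (hT : Tan) (hF : FlatStmt) (hC : CylDensStmt) (h : M1a)
    {w : ℝ → E3 → ℝ} {a A C : ℝ} (ha : a ≤ -20) (hw : IsGood w (Ioo a 0) A C) :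
    ∃ s ν, TanSeq w s ν ∧ ν (Zset ν) = 0 := by
  obtain ⟨θ, O, hθ, hO, hR, hM⟩ := h w a A C ha hw
  have ha0 : a < 0 := by linarith
  have hA : 0 ≤ A := zero_le_one.trans hw.one_le
  choose l hl hM using fun j : ℕ => hM j ((1 / 2) ^ j * (1 / 2) ^ j / 4) (-j) (by positivity)
  have hpos : ∀ J : ℕ, max a (-(1 / ((J : ℝ) + 1))) < 0 := fun J =>
    max_lt ha0 (neg_neg_of_pos Nat.one_div_pos_of_nat)
  choose t ht hsm using fun J => exists_time (f := fun j t => ar (w t) (NN O j (l j) t)) (a := a)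
    (fun j => by
      refine (h1.stm_meas w _ hw.toIsFlow _ (measurable_one.indicator
        (measurableSet_NN hO j (l j)))).congr (Eventually.of_forall fun t => ?_)
      exact lintegral_indicator_one (measurable_prodMk_left (measurableSet_NN hO j (l j)))) hM J
    (le_max_left _ _) (hpos J)
  have hs0 : ∀ J, 0 < √(-t J) := fun J => Real.sqrt_pos.2 (neg_pos.2 (ht J).2)
  have hs2 : ∀ J, √(-t J) ^ 2 * -1 = t J := fun J => by
    rw [Real.sq_sqrt (neg_nonneg.2 (ht J).2.le)]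
    ring
  have hlim : Tendsto (fun J => √(-t J)) atTop (𝓝 0) := by
    rw [← Real.sqrt_zero]
    exact (squeeze_zero (fun J => neg_nonneg.2 (ht J).2.le) (fun J =>
      neg_le.1 ((le_max_right _ _).trans (ht J).1.le)) tendsto_one_div_add_atTop_nhds_zero_nat).sqrt
  obtain ⟨φ, ν, hφ, hs⟩ := hT.compact w a A ha0 hw.toIsARFlow _ hs0 hlim
  refine ⟨_, ν, hs, ?_⟩
  have hν := hT.ratio w a A ha0 hw.toIsARFlow _ ν hs
  have hfl := hF w a A C ha0 hw _ ν hs
  have hlf := hs.locFin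
  have hg := fun i => hT.resc_good w a A C hw _ (hs.pos i)
  rw [← iUnion_inter_closedBall_nat (Zset ν) 0]
  refine measure_iUnion_null fun R => ?_
  obtain ⟨r₀, hr₀, hge⟩ := Flat.mk_ge hC hfl R
  have hlim2 : Tendsto (fun j : ℕ => ENNReal.ofReal ((1 / 2) ^ j)) atTop (𝓝 0) := by
    rw [← ENNReal.ofReal_zero]
    exact ENNReal.tendsto_ofReal (tendsto_pow_atTop_nhds_zero_of_lt_one (by norm_num) (by norm_num))
  refine nonpos_iff_eq_zero.1 (ge_of_tendsto hlim2 ?_)
  filter_upwards [eventually_ge_atTop (R + 1), (Real.tendsto_exp_neg_atTop_nhds_zero.comp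
    tendsto_natCast_atTop_atTop).eventually (gt_mem_nhds hr₀)] with j hj hj'
  have hr := Real.exp_pos (l j - 1)
  have hrr : Real.exp (l j - 1) < r₀ := (Real.exp_le_exp.2 (by linarith [hl j])).trans_lt hj'
  set r := Real.exp (l j - 1) with hrd
  have hρ : 0 < min 1 (r / (100 * A + 1)) := lt_min one_pos (by positivity)
  refine meas_le_of_weak hs.weak ((isCompact_closedBall _ _).inter_left
    (Flat.isClosed_zset hC hA hν hfl)) isOpen_thickening (self_subset_thickening hρ _)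
    (by positivity) ?_
  filter_upwards [ev_lt hs ha0 (-1), hφ.tendsto_atTop.eventually (eventually_gt_atTop j),
    hT.gd_lim _ _ A ((ev_lt hs ha0 (-1)).mono fun i hi => (hg i).ratio _ ⟨hi, by norm_num⟩) hν
      hs.weak (R + 1) r r (1 / 2) hr (by norm_num)] with i hi hi' hi''
  have hc := hs0 (φ i)
  have hsub : (fun x : E3 => (√(-t (φ i)))⁻¹ • x) ⁻¹' thickening (min 1 (r / (100 * A + 1)))
      (Zset ν ∩ closedBall 0 R) ⊆ NN O j (l j) (t (φ i)) := by
    intro y hy
    rw [mem_preimage, mem_thickening_iff] at hy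
    obtain ⟨z, ⟨hz, hz'⟩, hd⟩ := hy
    obtain ⟨x, rfl⟩ : ∃ x, y = √(-t (φ i)) • x := ⟨_, (smul_inv_smul₀ hc.ne' y).symm⟩
    rw [inv_smul_smul₀ hc.ne', dist_eq_norm, lt_min_iff] at hd
    rw [mem_closedBall_zero_iff] at hz'
    have h2 : ‖x‖ ≤ R + 1 := (norm_le_norm_add_norm_sub' x z).trans (add_le_add hz' hd.1.le)
    have h4 := mk_near hν hA hr (hge z hz hz' r hr hrr) hd.2
    have h6 := abs_le.1 (hi'' x h2 r ⟨le_rfl, le_rfl⟩).2
    refine ⟨?_, hR _ ⟨(le_max_left _ _).trans_lt (ht _).1, (ht _).2⟩ _ _ fun hreg => ?_⟩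
    · rw [norm_smul, Real.norm_eq_abs, abs_of_pos hc, mul_comm]
      exact mul_le_mul_of_nonneg_right (h2.trans (by exact_mod_cast hj)) hc.le
    · have e : Real.exp (lev (l j) (t (φ i)) - 1) = √(-t (φ i)) * r := by
        rw [hrd, Real.exp_sub, Real.exp_sub, exp_lev _ (ht _).2]
        ring
      have h7 := mk_le_of_reg hC (h1.slice _ _ (hg i).toIsFlow (-1)
        ⟨hi, by norm_num⟩).smooth.continuous hθ hr (reg_resc hc (by rwa [hs2, ← e]))
      linarith [h6.1]
  rw [hT.ar_resc w _ _ (hs.pos i), scal, Measure.smul_apply, Measure.map_apply (by fun_prop)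
    isOpen_thickening.measurableSet, smul_eq_mul]
  simp only [Function.comp_apply, hs2]
  refine (mul_le_mul_right ((measure_mono hsub).trans (hsm _ j hi')) _).trans_eq ?_
  rw [← ENNReal.ofReal_mul (sq_nonneg _), inv_pow, Real.sq_sqrt (neg_nonneg.2 (ht _).2.le),
    mul_left_comm, inv_mul_cancel₀ (neg_pos.2 (ht _).2).ne', mul_one]

theorem m1b (h1 : Calc) (hT : Tan) (hF : FlatStmt) (hC : CylDensStmt) (h : M1a) : M1Stmt := by
  intro w a A C ha hw
  have hc : 0 < √(-a / 20) := Real.sqrt_pos.2 (by linarith)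
  obtain ⟨s, ν, hs, hν⟩ := m1b' h1 hT hF hC h (le_of_eq (by
    rw [Real.sq_sqrt (by linarith), div_eq_iff (by linarith)]
    ring)) (hT.resc_good w a A C hw _ hc)
  refine ⟨fun i => √(-a / 20) * s i, ν, ⟨fun i => mul_pos hc (hs.pos i), ?_, hs.locFin, ?_⟩, hν⟩
  · simpa using hs.lim.const_mul (√(-a / 20))
  · simpa only [resc_resc] using hs.weak

end Vale.Agent.P218UZ
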