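import Mathlib.Geometry.Manifold.Instances.Real
import Mathlib.Geometry.Manifold.MFDeriv.Defs
import Mathlib.Geometry.Manifold.ContMDiff.Defs
import Mathlib.Analysis.InnerProductSpace.PiL2
import Mathlib.Analysis.InnerProductSpace.Projection.Basic
import Mathlib.Analysis.Calculus.Deriv.Basic
import Mathlib.LinearAlgebra.Matrix.NonsingularInverse

/-! Smooth mean curvature flow of a parametrised surface in `ℝ³`. -/

open Set
open scoped Manifold ContDiff RealInnerProductSpace

namespace Vale.Agent.P218UZ

/-- the Euclidean plane, where the charts take their values -/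
abbrev E2 := EuclideanSpace ℝ (Fin 2)

/-- Euclidean three-space -/
abbrev E3 := EuclideanSpace ℝ (Fin 3)

/-- the coordinate vectors of the plane -/
noncomputable def eb (i : Fin 2) : E2 := EuclideanSpace.single i 1

/-- the induced metric `g_ij = ⟨∂_i G, ∂_j G⟩` of a local parametrisation `G` at `u` -/
noncomputable def metric (G : E2 → E3) (u : E2) : Matrix (Fin 2) (Fin 2) ℝ :=
  Matrix.of fun i j => ⟪fderiv ℝ G u (eb i), fderiv ℝ G u (eb j)⟫

/-- the mean curvature vector `g^{ij} (∂_i ∂_j G)^⊥` of a local parametrisation `G` at `u`, where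
`⊥` is the orthogonal projection to the normal space, the orthogonal complement of the range of
`DG(u)` -/
noncomputable def meanCurvChart (G : E2 → E3) (u : E2) : E3 :=
  ∑ i, ∑ j, (metric G u)⁻¹ i j •
    (LinearMap.range (fderiv ℝ G u).toLinearMap)ᗮ.starProjection
      (fderiv ℝ (fderiv ℝ G) u (eb i) (eb j))

variable {M : Type*} [TopologicalSpace M] [ChartedSpace E2 M]

/-- the mean curvature vector at `p` of an immersion `f` of a surface `M` in `ℝ³`, computed in the
preferred chart at `p` -/
noncomputable def meanCurv (f : M → E3) (p : M) : E3 :=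
  meanCurvChart (f ∘ (chartAt E2 p).symm) (chartAt E2 p p)

/-- `F_t : M → ℝ³`, `0 ≤ t < T`, is a smooth mean curvature flow: `F` is smooth on `[0, T) × M`,
every `F_t` is an immersion, and `∂_t F = H`, the mean curvature vector of `F_t`. -/
structure IsSmoothMCF (F : ℝ → M → E3) (T : ℝ) : Prop where
  smooth : ContMDiffOn (𝓘(ℝ, ℝ).prod (𝓡 2)) (𝓡 3) ∞ (fun z : ℝ × M => F z.1 z.2) (Ico 0 T ×ˢ univ)
  immersion : ∀ t ∈ Ico 0 T, ∀ p, Function.Injective (mfderiv (𝓡 2) (𝓡 3) (F t) p)
  flow : ∀ t ∈ Ioo 0 T, ∀ p, HasDerivAt (fun s => F s p) (meanCurv (F t) p) t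

end Vale.Agent.P218UZ
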