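import Vale.Agent.P218UZ.Flat
import Vale.Agent.P218UM.RegMass

/-! Small Gaussian density implies multiplicity one. -/

open MeasureTheory Set Filter Topology Metric
open scoped ENNReal NNReal RealInnerProductSpace ContDiff

namespace Vale.Agent.P218UZ

open Vale.Agent.P218 (WeakTendsto)
open Vale.Agent.P218UA Vale.Agent.P218UM

lemma lint_Ioc {f P : ℝ → ℝ} (hf : Continuous f) {a b : ℝ} (hab : a ≤ b)
    (h0 : ∀ u ∈ Ioc a b, 0 ≤ f u) (hP : ∀ u, HasDerivAt P (f u) u) :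
    ∫⁻ u in Ioc a b, ENNReal.ofReal (f u) = ENNReal.ofReal (P b - P a) := by
  rw [← intervalIntegral.integral_eq_sub_of_hasDerivAt (fun u _ => hP u) (hf.intervalIntegrable a b),
    intervalIntegral.integral_of_le hab, ofReal_integral_eq_lintegral_ofReal
      (hf.intervalIntegrable a b).1 (ae_restrict_of_forall_mem measurableSet_Ioc h0)]

lemma hasDerivAt_exp_neg (u : ℝ) : HasDerivAt (fun u => Real.exp (-u)) (-Real.exp (-u)) u := by
  simpa using (hasDerivAt_neg u).exp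

/-- the Gaussian is a mixture of the kernels -/
lemma mix_le {s : ℝ} (hs : 0 ≤ s) :
    ∫⁻ u in Ioc (0 : ℝ) 12, ENNReal.ofReal (max (u - s) 0 ^ 3 * Real.exp (-u))
      ≤ ENNReal.ofReal (6 * Real.exp (-s)) := by
  have h1 : ∫⁻ u in Ioc (0 : ℝ) 12, ENNReal.ofReal (max (u - s) 0 ^ 3 * Real.exp (-u))
      ≤ ∫⁻ u in Ioc s (s + 12), ENNReal.ofReal ((u - s) ^ 3 * Real.exp (-u)) := by
    rw [← lintegral_indicator measurableSet_Ioc, ← lintegral_indicator measurableSet_Ioc]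
    refine lintegral_mono fun u => indicator_le (fun u hu => ?_) u
    rcases le_or_gt u s with h | h
    · simp [max_eq_right (sub_nonpos.2 h)]
    · rw [indicator_of_mem (show u ∈ Ioc s (s + 12) from ⟨h, by linarith [hu.2]⟩),
        max_eq_left (sub_pos.2 h).le]
  rw [lint_Ioc (P := fun u => -((u - s) ^ 3 + 3 * (u - s) ^ 2 + 6 * (u - s) + 6) * Real.exp (-u))
    (by fun_prop) (by linarith)
    (fun u hu => mul_nonneg (pow_nonneg (sub_pos.2 hu.1).le 3) (Real.exp_pos _).le)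
    (fun u => by
      have d := (hasDerivAt_id u).sub_const s
      refine (((((d.pow 3).add ((d.pow 2).const_mul 3)).add (d.const_mul 6)).add_const 6).neg.mul
        (hasDerivAt_exp_neg u)).congr_deriv ?_
      simp
      ring)] at h1
  refine h1.trans (ENNReal.ofReal_le_ofReal ?_)
  have := Real.exp_pos (-(s + 12))
  simp only [add_sub_cancel_left, sub_self]
  linarith

lemma mix_ge : ENNReal.ofReal 23 ≤ ∫⁻ u in Ioc (0 : ℝ) 12, ENNReal.ofReal (u ^ 4 * Real.exp (-u)) := by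
  rw [lint_Ioc (P := fun u => -(u ^ 4 + 4 * u ^ 3 + 12 * u ^ 2 + 24 * u + 24) * Real.exp (-u))
    (by fun_prop) (by norm_num) (fun u _ => by positivity)
    (fun u => by
      have d := hasDerivAt_id u
      refine ((((((d.pow 4).add ((d.pow 3).const_mul 4)).add ((d.pow 2).const_mul 12)).add
        (d.const_mul 24)).add_const 24).neg.mul (hasDerivAt_exp_neg u)).congr_deriv ?_
      simp
      ring)]
  refine ENNReal.ofReal_le_ofReal ?_
  have h1 : (2.7 : ℝ) ^ 12 ≤ Real.exp 1 ^ 12 :=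
    pow_le_pow_left₀ (by norm_num) (by linarith [Real.exp_one_gt_d9]) 12
  rw [← Real.exp_nat_mul] at h1
  have h2 : Real.exp (-12) * Real.exp ((12 : ℕ) * 1) = 1 := by rw [← Real.exp_add]; norm_num
  have h3 := Real.exp_pos (-12)
  have h4 := mul_le_mul_of_nonneg_left h1 h3.le
  rw [h2] at h4
  simp only [neg_zero, Real.exp_zero]
  norm_num at h4 ⊢
  linarith

lemma gd_ge {μ : Measure E3} [IsLocallyFiniteMeasure μ] {z : E3} {ρ : ℝ} (hρ : 0 < ρ)
    (hi : Integrable (fun y => Real.exp (-‖y - z‖ ^ 2 / (4 * ρ ^ 2))) μ)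
    (h : ∀ r, 0 < r → r ≤ 7 * ρ → 19 / 10 ≤ mk μ z r) : 9 / 5 ≤ gd μ z ρ := by
  have hπ := Real.pi_pos
  have h1 : ∫⁻ y, ∫⁻ u in Ioc (0 : ℝ) 12,
      ENNReal.ofReal (max (u - ‖y - z‖ ^ 2 / (4 * ρ ^ 2)) 0 ^ 3 * Real.exp (-u)) ∂volume ∂μ
      ≤ ENNReal.ofReal (6 * ∫ y, Real.exp (-‖y - z‖ ^ 2 / (4 * ρ ^ 2)) ∂μ) := by
    rw [← integral_const_mul, ofReal_integral_eq_lintegral_ofReal (hi.const_mul 6)
      (Eventually.of_forall fun y => by positivity)]
    refine lintegral_mono fun y => (mix_le (by positivity)).trans_eq ?_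
    rw [neg_div]
  rw [lintegral_lintegral_swap (Measurable.aemeasurable (by fun_prop))] at h1
  have h2 : ∀ u ∈ Ioc (0 : ℝ) 12,
      ENNReal.ofReal (19 / 10 * Real.pi * ρ ^ 2) * ENNReal.ofReal (u ^ 4 * Real.exp (-u)) ≤
      ∫⁻ y, ENNReal.ofReal (max (u - ‖y - z‖ ^ 2 / (4 * ρ ^ 2)) 0 ^ 3 * Real.exp (-u)) ∂μ := by
    intro u hu
    have hu0 := hu.1
    have hq : 0 < √u := Real.sqrt_pos.2 hu0
    have hq2 : √u ^ 2 = u := Real.sq_sqrt hu0.le
    have hr : 0 < 2 * ρ * √u := by positivity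
    have e : ∀ y : E3, max (u - ‖y - z‖ ^ 2 / (4 * ρ ^ 2)) 0 ^ 3 * Real.exp (-u)
        = Real.pi / 4 * u ^ 3 * Real.exp (-u) * kk ((2 * ρ * √u)⁻¹ • (y - z)) := fun y => by
      have e1 : u - ‖y - z‖ ^ 2 / (4 * ρ ^ 2) = u * (1 - ‖(2 * ρ * √u)⁻¹ • (y - z)‖ ^ 2) := by
        rw [norm_smul, mul_pow, norm_inv, inv_pow, Real.norm_eq_abs, sq_abs, mul_pow, hq2]
        field_simp
        ring
      rw [e1, kk, ← mul_zero u, ← mul_max_of_nonneg _ _ hu0.le, mul_zero]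
      field_simp
    simp only [e]
    rw [← ofReal_integral_eq_lintegral_ofReal ((integrable_kk μ z hr).const_mul _)
      (Eventually.of_forall fun y => mul_nonneg (by positivity) (kk_nonneg _)), integral_const_mul,
      ← ENNReal.ofReal_mul (by positivity)]
    refine ENNReal.ofReal_le_ofReal ?_
    have h3 := h _ hr (by
      have : √u ≤ 7 / 2 := Real.sqrt_le_iff.2 ⟨by norm_num, by linarith [hu.2]⟩
      nlinarith)
    rw [P218UA.mk, le_div_iff₀ (by positivity), mul_pow, hq2] at h3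
    refine le_trans (le_of_eq ?_) (mul_le_mul_of_nonneg_left h3 (by positivity))
    ring
  have h3 := (setLIntegral_mono' measurableSet_Ioc h2).trans h1
  rw [lintegral_const_mul' _ _ ENNReal.ofReal_ne_top] at h3
  have h4 := (mul_le_mul_right mix_ge _).trans h3
  rw [← ENNReal.ofReal_mul (by positivity), ENNReal.ofReal_le_ofReal_iff
    (mul_nonneg (by norm_num) (integral_nonneg fun _ => (Real.exp_pos _).le))] at h4
  rw [gd, le_div_iff₀ (by positivity)]
  nlinarith [mul_pos hπ (pow_pos hρ 2)]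

lemma gd_nonneg (μ : Measure E3) (x : E3) (r : ℝ) : 0 ≤ gd μ x r :=
  div_nonneg (integral_nonneg fun _ => (Real.exp_pos _).le) (by positivity)

lemma integrable_gauss (h2 : Mono) {μ : Measure E3} {A : ℝ} (hA : 0 ≤ A) (h : AR μ A) (x : E3)
    {r : ℝ} (hr : 0 < r) : Integrable (fun y => Real.exp (-‖y - x‖ ^ 2 / (4 * r ^ 2))) μ := by
  obtain ⟨C, hC⟩ := h2.tail
  refine (hC μ A hA h x r hr).1.mono' (by fun_prop) (Eventually.of_forall fun y => ?_)
  rw [Real.norm_eq_abs, abs_of_pos (Real.exp_pos _), Real.exp_le_exp, neg_div, neg_div,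
    neg_le_neg_iff]
  exact div_le_div_of_nonneg_left (sq_nonneg _) (by positivity) (by nlinarith [sq_nonneg r])

lemma tendsto_gd (h2 : Mono) {μ : Measure E3} {A : ℝ} (hA : 0 ≤ A) (h : AR μ A) {x : ℕ → E3}
    {r : ℕ → ℝ} (hx : Tendsto x atTop (𝓝 0)) (hr : Tendsto r atTop (𝓝 1)) (hr1 : ∀ n, r n ^ 2 ≤ 1) :
    Tendsto (fun n => gd μ (x n) (r n)) atTop (𝓝 (gd μ 0 1)) := by
  obtain ⟨C, hC⟩ := h2.tail
  refine Tendsto.div ?_ ((hr.pow 2).const_mul _) (by positivity)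
  refine tendsto_integral_filter_of_dominated_convergence
    (fun y => Real.exp 1 * Real.exp (-‖y - 0‖ ^ 2 / (8 * 1 ^ 2)))
    (Eventually.of_forall fun n => by fun_prop) ?_ ((hC μ A hA h 0 1 one_pos).1.const_mul _)
    (Eventually.of_forall fun y => (Real.continuous_exp.tendsto _).comp
      (((tendsto_const_nhds.sub hx).norm.pow 2).neg.div ((hr.pow 2).const_mul 4) (by norm_num)))
  filter_upwards [hr.eventually (lt_mem_nhds (show (0 : ℝ) < 1 by norm_num)),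
    hx.norm.eventually (gt_mem_nhds (show ‖(0 : E3)‖ < 1 by simp))] with n hn hn'
  refine Eventually.of_forall fun y => ?_
  rw [Real.norm_eq_abs, abs_of_pos (Real.exp_pos _), ← Real.exp_add, Real.exp_le_exp, sub_zero]
  have e1 : ‖y - x n‖ ^ 2 / 4 ≤ ‖y - x n‖ ^ 2 / (4 * r n ^ 2) :=
    div_le_div_of_nonneg_left (sq_nonneg _) (by positivity) (by linarith [hr1 n])
  have e2 : ‖y‖ ≤ ‖y - x n‖ + ‖x n‖ := by simpa using norm_add_le (y - x n) (x n)
  have e3 : ‖y‖ ^ 2 ≤ 2 * ‖y - x n‖ ^ 2 + 2 := by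
    nlinarith [norm_nonneg y, norm_nonneg (y - x n), norm_nonneg (x n), sq_nonneg (‖y - x n‖ - 1)]
  rw [neg_div, neg_div]
  linarith

/-- the Gaussian density ratios of a tangent flow are at most the density at the origin -/
theorem gd_le_origin (h2 : Mono) (hT : Tan) {w : ℝ → E3 → ℝ} {a A C : ℝ} (ha : a < 0)
    (hw : IsGood w (Ioo a 0) A C) {s : ℕ → ℝ} {ν : Measure E3} (hs : TanSeq w s ν) (z : E3)
    {ρ : ℝ} (hρ : 0 < ρ) (hρ1 : ρ ≤ 1) : gd ν z ρ ≤ gd ν 0 1 := by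
  have hA : 0 ≤ A := zero_le_one.trans hw.one_le
  have hν := hT.ratio w a A ha hw.toIsARFlow s ν hs
  have hg := fun i => hT.resc_good w a A C hw (s i) (hs.pos i)
  have hlim : ∀ t < 0, ∀ (x : E3) (r : ℝ), 0 < r →
      Tendsto (fun i => gd (ar (resc w (s i) t)) x r) atTop (𝓝 (gd (scal ν √(-t)) x r)) := by
    intro t ht x r hr
    rw [Metric.tendsto_nhds]
    intro ε hε
    filter_upwards [hT.gd_lim _ _ A ((ev_lt hs ha t).mono fun i hi => (hg i).ratio t ⟨hi, ht⟩)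
      (AR_scal hν (Real.sqrt_pos.2 (neg_pos.2 ht)))
      (hT.slow w a A ha hw.toIsARFlow s ν hs _ t ht tendsto_const_nhds) ‖x‖ r r (ε / 2) hr
      (half_pos hε)] with i hi
    exact (hi x le_rfl r ⟨le_rfl, le_rfl⟩).1.trans_lt (half_lt_self hε)
  have key : ∀ c : ℝ, 1 ≤ c → gd ν z ρ ≤ gd ν (c⁻¹ • z) (√(1 - (1 - ρ ^ 2) / c ^ 2)) := by
    intro c hc
    have hc0 : 0 < c := by linarith
    have hc2 : 1 ≤ c ^ 2 := one_le_pow₀ hc
    have hq : 0 < -1 + ρ ^ 2 - -c ^ 2 := by nlinarith [pow_pos hρ 2]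
    have l1 := hlim (-1) (by norm_num) z ρ hρ
    have l2 := hlim (-c ^ 2) (by linarith) z _ (Real.sqrt_pos.2 hq)
    have e1 : scal ν √(- -1) = ν := by simp [scal]
    have e2 : gd (scal ν √(- -c ^ 2)) z √(-1 + ρ ^ 2 - -c ^ 2)
        = gd ν (c⁻¹ • z) (√(1 - (1 - ρ ^ 2) / c ^ 2)) := by
      rw [← gd_scal ν hc0, smul_inv_smul₀ hc0.ne', neg_neg, Real.sqrt_sq hc0.le]
      congr 1
      rw [← Real.sqrt_sq hc0.le, ← Real.sqrt_mul (sq_nonneg c), Real.sqrt_sq hc0.le]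
      congr 1
      field_simp
      ring
    rw [e1] at l1
    rw [e2] at l2
    refine le_of_tendsto_of_tendsto l1 l2 ?_
    filter_upwards [ev_lt hs ha (-c ^ 2)] with i hi
    have h3 := h2.mono _ _ A (hg i).toIsARFlow z (-1 + ρ ^ 2) (-c ^ 2) (-1) ⟨hi, by linarith⟩
      ⟨by linarith, by norm_num⟩ (by linarith) (by nlinarith [pow_pos hρ 2])
    rw [show -1 + ρ ^ 2 - -1 = ρ ^ 2 by ring, Real.sqrt_sq hρ.le] at h3
    exact (ENNReal.ofReal_le_ofReal_iff (gd_nonneg _ _ _)).1 (le_self_add.trans h3)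
  have hc : Tendsto (fun n : ℕ => (n : ℝ) + 1) atTop atTop :=
    tendsto_atTop_add_const_right _ _ tendsto_natCast_atTop_atTop
  have hρ2 : 0 ≤ 1 - ρ ^ 2 := by nlinarith
  refine ge_of_tendsto' (tendsto_gd h2 hA hν (x := fun n : ℕ => ((n : ℝ) + 1)⁻¹ • z)
    (r := fun n : ℕ => √(1 - (1 - ρ ^ 2) / ((n : ℝ) + 1) ^ 2)) ?_ ?_ fun n => ?_)
    fun n => key _ (by linarith [n.cast_nonneg (α := ℝ)])
  · simpa using (tendsto_inv_atTop_zero.comp hc).smul_const z
  · simpa using ((((tendsto_pow_atTop two_ne_zero).comp hc).const_div_atTop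
      (1 - ρ ^ 2)).const_sub 1).sqrt
  · exact pow_le_one₀ (Real.sqrt_nonneg _)
      (Real.sqrt_le_one.2 (sub_le_self _ (div_nonneg hρ2 (sq_nonneg _))))

theorem lowDens (h2 : Mono) (hT : Tan) (hF : FlatStmt) (hC : CylDensStmt) : LowDensStmt := by
  intro w a A C ha hw s ν hs hlt
  refine eq_empty_of_forall_notMem fun z hz => hlt.not_ge ?_
  obtain ⟨r₀, hr₀, h⟩ := Flat.mk_ge hC (hF w a A C ha hw s ν hs) ‖z‖
  have hρ : 0 < min 1 (r₀ / 8) := lt_min one_pos (by linarith)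
  have := hs.locFin
  exact (gd_ge hρ (integrable_gauss h2 (zero_le_one.trans hw.one_le)
    (hT.ratio w a A ha hw.toIsARFlow s ν hs) z hρ) fun r hr hr' => h z hz le_rfl r hr
      (by linarith [min_le_right 1 (r₀ / 8)])).trans
    (gd_le_origin h2 hT ha hw hs z hρ (min_le_left _ _))

end Vale.Agent.P218UZ
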