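import Vale.Agent.P218UZ.Final
import Vale.Agent.P218UZ.LowD
import Vale.Agent.P218UZ.M1b
import Vale.Agent.P218UX.Mono
import Vale.Agent.P218UU.Slow
import Vale.Agent.P218UE.Final
import Vale.Agent.P218UF.FL
import Vale.Agent.P218UG.Sheet
import Vale.Agent.P218UK.Brakke
import Vale.Agent.P218UK.RegPt
import Vale.Agent.P218UT.Cyl
import Vale.Agent.P218UC.AL
import Vale.Agent.P218UP.Cell
import Vale.Agent.P218UR.Loops
import Vale.Agent.P218TB.Format
import Vale.Agent.P218HD.HD
import Vale.Agent.P218UW.White
import Vale.Agent.P218UG.QS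
import Vale.Agent.P218US.Lim
import Vale.Agent.P218UX.Ends

/-! The blocks which are proved without hypotheses. -/

namespace Vale.Agent.P218UZ

open Vale.Agent.P218UA

theorem calcA : Calc := P218UX.calcThm

theorem monoA : Mono := P218UX.monoThm

theorem graphA : Graph := P218UG.graph

theorem tanA : Tan := P218UU.tan monoA

theorem cylA : CylDensStmt := P218UT.cylDens

theorem flA : FLStmt := P218UF.flStmt

theorem flatA : FlatStmt := flat calcA monoA tanA flA

theorem lowDensA : LowDensStmt := lowDens monoA tanA flatA cylA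

theorem lgbA : LGBFlowStmt := P218UE.lgbFlow calcA graphA

theorem brakkeA : BrakkeStmt := P218UK.brakke calcA monoA

theorem cellA : Cell := P218UP.cell calcA monoA

theorem hdA : HDStmt := P218HD.hd

theorem alA : ALStmt := P218UC.al

theorem formatA : FormatStmt := P218TB.format_of_loops fun _ _ _ h1 h2 h3 h4 h5 h6 => by
  obtain ⟨l, L, e1, e2, -⟩ := P218UR.loops h1 h4 h2 h3 h5 h6
  exact ⟨l, L, e1, e2⟩

theorem whiteA : WhiteStmt := P218UW.white monoA

theorem sheetA : SheetStmt := P218UG.sheet monoA whiteA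

theorem qsA : QSStmt := P218UG.qs calcA monoA sheetA cylA

theorem regPtA : RegPtStmt := P218UK.regPt monoA tanA flatA sheetA cylA

theorem limA : LimStmt := P218US.lim tanA regPtA hdA sdm

theorem m1A (h : P218UM.M1a) : M1Stmt := m1b calcA tanA flatA cylA h

theorem endsA (h1 : M1Stmt) (h2 : DensStmt) : EndsStmt :=
  P218UX.ends monoA tanA h1 h2 lowDensA limA alA cylA sheetA hdA

theorem shapeA (h1 : M1Stmt) (h2 : DensStmt) : ShapeStmt :=
  shape h1 h2 limA (endsA h1 h2) formatA tanA

end Vale.Agent.P218UZ
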