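import Vale.Agent.P218UZ.Loc
import Mathlib.Geometry.Manifold.ContMDiff.Atlas
import Mathlib.Geometry.Manifold.ContMDiff.NormedSpace
import Mathlib.Geometry.Manifold.ContMDiff.Constructions
import Mathlib.Geometry.Manifold.MFDeriv.Basic
import Mathlib.Analysis.Calculus.MeanValue
import Mathlib.Analysis.Calculus.Deriv.Prod
import Mathlib.Analysis.Calculus.DerivativeTest

/-! A smooth mean curvature flow read in charts; local injectivity; the two-point inequality. -/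

open Set Filter Topology Metric
open scoped Manifold ContDiff RealInnerProductSpace

namespace Vale.Agent.P218UZ

variable {M : Type*} [TopologicalSpace M] [ChartedSpace E2 M] {F : ℝ → M → E3} {T : ℝ}

/-- the flow in the chart at `p` -/
noncomputable def Gc (F : ℝ → M → E3) (p : M) (z : ℝ × E2) : E3 := F z.1 ((chartAt E2 p).symm z.2)

/-- the centre of the chart at `p` -/
noncomputable def uc (p : M) : E2 := chartAt E2 p p

lemma uc_mem (p : M) : uc p ∈ (chartAt E2 p).target := mem_chart_target E2 p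

lemma Gc_chart {p q : M} (hq : q ∈ (chartAt E2 p).source) (t : ℝ) :
    Gc F p (t, chartAt E2 p q) = F t q := by
  simp [Gc, (chartAt E2 p).left_inv hq]

lemma Gc_uc (p : M) (t : ℝ) : Gc F p (t, uc p) = F t p := Gc_chart (mem_chart_source E2 p) t

lemma tendsto_chart (p : M) : Tendsto (chartAt E2 p) (𝓝 p) (𝓝 (uc p)) :=
  (chartAt E2 p).continuousAt (mem_chart_source E2 p)

lemma tendsto_chart_symm (p : M) : Tendsto (chartAt E2 p).symm (𝓝 (uc p)) (𝓝 p) :=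
  (chartAt E2 p).tendsto_symm (mem_chart_source E2 p)

namespace IsSmoothMCF

variable (hF : IsSmoothMCF F T)
include hF

lemma cont : ContinuousOn (fun z : ℝ × M => F z.1 z.2) (Ico 0 T ×ˢ univ) := hF.smooth.continuousOn

lemma cont_sec {t : ℝ} (ht : t ∈ Ico 0 T) : Continuous (F t) :=
  hF.cont.comp_continuous (f := fun p => (t, p)) (Continuous.prodMk_right t) fun _ => ⟨ht, trivial⟩

variable [IsManifold (𝓡 2) ∞ M]

lemma cdOn (p : M) : ContDiffOn ℝ ∞ (Gc F p) (Ico 0 T ×ˢ (chartAt E2 p).target) := by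
  have h1 : ContMDiffOn 𝓘(ℝ, ℝ × E2) (𝓘(ℝ, ℝ).prod (𝓡 2)) ∞
      (fun z : ℝ × E2 => (z.1, (chartAt E2 p).symm z.2)) (Ico 0 T ×ˢ (chartAt E2 p).target) :=
    contDiff_fst.contMDiff.contMDiffOn.prodMk
      (contMDiffOn_chart_symm.comp contDiff_snd.contMDiff.contMDiffOn fun z hz => hz.2)
  exact (hF.smooth.comp h1 fun z hz => ⟨hz.1, trivial⟩).contDiffOn

lemma cdAt_sec (p : M) {t : ℝ} (ht : t ∈ Ico 0 T) {u : E2} (hu : u ∈ (chartAt E2 p).target) :
    ContDiffAt ℝ ∞ (fun u => Gc F p (t, u)) u :=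
  ((hF.cdOn p).comp (f := fun u => (t, u)) (contDiffOn_const.prodMk contDiffOn_id)
    fun _ hu => ⟨ht, hu⟩).contDiffAt ((chartAt E2 p).open_target.mem_nhds hu)

omit [IsManifold (𝓡 2) ∞ M] in
lemma inj_centre (p : M) {t : ℝ} (ht : t ∈ Ico 0 T) :
    Function.Injective (fderiv ℝ (fun u => Gc F p (t, u)) (uc p)) := by
  have h1 : ContMDiff (𝓡 2) (𝓡 3) ∞ (F t) :=
    hF.smooth.comp_contMDiff (f := fun p => (t, p)) (contMDiff_const.prodMk contMDiff_id)
      fun _ => ⟨ht, trivial⟩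
  have h2 := hF.immersion t ht p
  rw [(h1.mdifferentiableAt (by simp)).mfderiv] at h2
  simp only [writtenInExtChartAt, mfld_simps, fderivWithin_univ] at h2
  exact h2

lemma ev_cdAt (p : M) {t : ℝ} (ht : t ∈ Ioo 0 T) :
    ∀ᶠ z in 𝓝 (t, uc p), ContDiffAt ℝ ∞ (Gc F p) z := by
  have ho : IsOpen (Ioo 0 T ×ˢ (chartAt E2 p).target) := isOpen_Ioo.prod (chartAt E2 p).open_target
  filter_upwards [ho.mem_nhds ⟨ht, uc_mem p⟩] with z hz
  exact ((hF.cdOn p).mono (prod_mono Ioo_subset_Ico_self Subset.rfl)).contDiffAt (ho.mem_nhds hz)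

lemma dS_eq (p : M) {t : ℝ} (ht : t ∈ Ioo 0 T) :
    dS (Gc F p) (t, uc p) = fderiv ℝ (fun u => Gc F p (t, u)) (uc p) :=
  (hasFDerivAt_sec ((hF.ev_cdAt p ht).self_of_nhds.differentiableAt (by simp))).fderiv.symm

lemma fderiv_time (p : M) {t : ℝ} (ht : t ∈ Ioo 0 T) :
    fderiv ℝ (Gc F p) (t, uc p) (1, 0) = meanCurvChart (fun u => Gc F p (t, u)) (uc p) := by
  have h1 := HasFDerivAt.comp_hasDerivAt (f := fun s : ℝ => (s, uc p)) t
    ((hF.ev_cdAt p ht).self_of_nhds.differentiableAt (by simp)).hasFDerivAt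
    ((hasDerivAt_id t).prodMk (hasDerivAt_const t (uc p)))
  have h2 := hF.flow t ht p
  simp only [← Gc_uc p] at h2
  exact h1.unique h2

/-- local injectivity, uniformly in time -/
lemma loc_inj (p : M) {t : ℝ} (ht : t ∈ Ico 0 T) :
    ∀ᶠ z : ℝ × M × M in 𝓝 (t, p, p), z.1 ∈ Ico 0 T → F z.1 z.2.1 = F z.1 z.2.2 → z.2.1 = z.2.2 := by
  set S := Ico 0 T ×ˢ (chartAt E2 p).target with hS
  have hu : UniqueDiffOn ℝ S := (uniqueDiffOn_Ico 0 T).prod (chartAt E2 p).open_target.uniqueDiffOn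
  let D : ℝ × E2 → E2 →L[ℝ] E3 := fun z =>
    (fderivWithin ℝ (Gc F p) S z).comp (ContinuousLinearMap.inr ℝ ℝ E2)
  have hD : ∀ z ∈ S, HasFDerivAt (fun u => Gc F p (z.1, u)) (D z) z.2 := fun z hz =>
    (HasFDerivWithinAt.comp (f := fun u => (z.1, u)) (s := (chartAt E2 p).target) z.2
      ((hF.cdOn p).differentiableOn (by simp) z hz).hasFDerivWithinAt
      (hasFDerivAt_prodMk_right z.1 z.2).hasFDerivWithinAt fun _ hv => ⟨hz.1, hv⟩).hasFDerivAt
      ((chartAt E2 p).open_target.mem_nhds hz.2)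
  have hz0 : (t, uc p) ∈ S := ⟨ht, uc_mem p⟩
  have hc : ContinuousWithinAt D S (t, uc p) :=
    (((hF.cdOn p).continuousOn_fderivWithin hu (by simp)).clm_comp continuousOn_const) _ hz0
  have hi : Function.Injective (D (t, uc p)) := (hD _ hz0).fderiv ▸ hF.inj_centre p ht
  obtain ⟨K, hK0, hK⟩ := (D (t, uc p)).toLinearMap.exists_antilipschitzWith
    (LinearMap.ker_eq_bot.2 hi)
  have hK0' : (0 : ℝ) < K := hK0
  have h1 : ∀ᶠ z in 𝓝 (t, uc p), z ∈ S → ‖D z - D (t, uc p)‖ ≤ 1 / (2 * K) := by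
    have := hc.eventually (closedBall_mem_nhds _ (show (0 : ℝ) < 1 / (2 * K) by positivity))
    rw [eventually_nhdsWithin_iff] at this
    exact this.mono fun z hz h => by simpa [dist_eq_norm] using hz h
  have h2 : ∀ᶠ z : ℝ × E2 in 𝓝 (t, uc p), z.2 ∈ (chartAt E2 p).target :=
    continuousAt_snd.eventually ((chartAt E2 p).open_target.mem_nhds (uc_mem p))
  obtain ⟨r, hr, hb⟩ := Metric.eventually_nhds_iff_ball.1 (h1.and h2)
  have h3 : ∀ᶠ q in 𝓝 p, q ∈ (chartAt E2 p).source ∧ chartAt E2 p q ∈ ball (uc p) r :=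
    Eventually.and (chart_source_mem_nhds E2 p) ((tendsto_chart p).eventually (ball_mem_nhds _ hr))
  have h4 : ∀ᶠ z : ℝ × M × M in 𝓝 (t, p, p), z.1 ∈ ball t r :=
    continuousAt_fst.eventually (ball_mem_nhds _ hr)
  have h5 : Tendsto (fun z : ℝ × M × M => z.2.1) (𝓝 (t, p, p)) (𝓝 p) :=
    continuous_snd.fst.tendsto _
  have h6 : Tendsto (fun z : ℝ × M × M => z.2.2) (𝓝 (t, p, p)) (𝓝 p) :=
    continuous_snd.snd.tendsto _
  filter_upwards [h4, h5.eventually h3, h6.eventually h3] with z hz h h' hzI he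
  have hm : ∀ v ∈ ball (uc p) r, (z.1, v) ∈ ball (t, uc p) r := fun v hv => by
    rw [← ball_prod_same]; exact ⟨hz, hv⟩
  have h7 := (convex_ball (uc p) r).norm_image_sub_le_of_norm_hasFDerivWithin_le'
    (f := fun u => Gc F p (z.1, u)) (f' := fun v => D (z.1, v)) (φ := D (t, uc p))
    (fun v hv => (hD (z.1, v) ⟨hzI, (hb _ (hm v hv)).2⟩).hasFDerivWithinAt)
    (fun v hv => (hb _ (hm v hv)).1 ⟨hzI, (hb _ (hm v hv)).2⟩) h.2 h'.2
  rw [Gc_chart h.1, Gc_chart h'.1, he, sub_self, zero_sub, norm_neg] at h7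
  have h8 := hK.le_mul_dist (chartAt E2 p z.2.2) (chartAt E2 p z.2.1)
  rw [dist_eq_norm, dist_eq_norm, ← map_sub] at h8
  have h9 : ‖chartAt E2 p z.2.2 - chartAt E2 p z.2.1‖ ≤ 0 := by
    have := mul_le_mul_of_nonneg_left h7 hK0'.le
    have e : (K : ℝ) * (1 / (2 * K) * ‖chartAt E2 p z.2.2 - chartAt E2 p z.2.1‖)
        = ‖chartAt E2 p z.2.2 - chartAt E2 p z.2.1‖ / 2 := by field_simp
    have h8' : ‖chartAt E2 p z.2.2 - chartAt E2 p z.2.1‖
        ≤ K * ‖D (t, uc p) (chartAt E2 p z.2.2 - chartAt E2 p z.2.1)‖ := h8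
    linarith
  exact ((chartAt E2 p).injOn h'.1 h.1 (sub_eq_zero.1 (norm_le_zero_iff.1 h9))).symm

end IsSmoothMCF

/-- second order condition at a local minimum -/
lemma second_nonneg {ψ ψ' : ℝ → ℝ} {c : ℝ} (hm : IsLocalMin ψ 0)
    (h1 : ∀ᶠ s in 𝓝 0, HasDerivAt ψ (ψ' s) s) (h2 : HasDerivAt ψ' c 0) : 0 ≤ c := by
  by_contra hc
  push Not at hc
  have e1 : deriv ψ =ᶠ[𝓝 0] ψ' := h1.mono fun s hs => hs.deriv
  have e2 : deriv (deriv ψ) 0 = c := by rw [e1.deriv_eq, h2.deriv]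
  have hM := isLocalMax_of_deriv_deriv_neg (e2 ▸ hc) hm.deriv_eq_zero h1.self_of_nhds.continuousAt
  have e3 : ψ =ᶠ[𝓝 0] fun _ => ψ 0 := by
    filter_upwards [hm, hM] with s h h'
    exact le_antisymm h' h
  have e4 : deriv ψ =ᶠ[𝓝 0] fun _ => 0 := by simpa using e3.deriv
  rw [e4.deriv_eq, deriv_const] at e2
  exact hc.ne e2.symm

lemma line_deriv {G : E2 → E3} {u : E2} (h : ContDiffAt ℝ 2 G u) (a : E2) :
    (∀ᶠ s in 𝓝 (0 : ℝ), HasDerivAt (fun s : ℝ => G (u + s • a)) (fderiv ℝ G (u + s • a) a) s) ∧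
      HasDerivAt (fun s : ℝ => fderiv ℝ G (u + s • a) a) (fderiv ℝ (fderiv ℝ G) u a a) 0 := by
  have hl : ∀ s : ℝ, HasDerivAt (fun s : ℝ => u + s • a) a s := fun s => by
    simpa using ((hasDerivAt_id s).smul_const a).const_add u
  have ht : Tendsto (fun s : ℝ => u + s • a) (𝓝 0) (𝓝 u) := by
    simpa using (hl 0).continuousAt.tendsto
  refine ⟨(ht.eventually (h.eventually (by simp))).mono fun s hs =>
    (hs.differentiableAt (by norm_num)).hasFDerivAt.comp_hasDerivAt s (hl s), ?_⟩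
  have h2 := ((h.fderiv_right (m := 1) (by norm_num)).differentiableAt one_ne_zero).hasFDerivAt
  have h3 := (h2.comp_hasDerivAt_of_eq 0 (hl 0) (by simp)).clm_apply (hasDerivAt_const 0 a)
  simpa using h3

/-- **Two-point inequality** at a local minimum of the distance. -/
lemma two_point {G₁ G₂ : E2 → E3} {u₁ u₂ : E2} (h₁ : ContDiffAt ℝ 2 G₁ u₁)
    (h₂ : ContDiffAt ℝ 2 G₂ u₂) (i₁ : Function.Injective (fderiv ℝ G₁ u₁))
    (i₂ : Function.Injective (fderiv ℝ G₂ u₂))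
    (hm : IsLocalMin (fun y : E2 × E2 => ‖G₁ y.1 - G₂ y.2‖ ^ 2) (u₁, u₂)) :
    0 ≤ ⟪G₁ u₁ - G₂ u₂, meanCurvChart G₁ u₁ - meanCurvChart G₂ u₂⟫ := by
  set w := G₁ u₁ - G₂ u₂ with hw
  rcases eq_or_ne w 0 with h0 | h0
  · simp [h0]
  have key : ∀ a b : E2, ⟪w, fderiv ℝ G₁ u₁ a - fderiv ℝ G₂ u₂ b⟫ = 0 ∧
      0 ≤ ‖fderiv ℝ G₁ u₁ a - fderiv ℝ G₂ u₂ b‖ ^ 2
        + ⟪w, fderiv ℝ (fderiv ℝ G₁) u₁ a a - fderiv ℝ (fderiv ℝ G₂) u₂ b b⟫ := fun a b => by
    obtain ⟨c₁, d₁⟩ := line_deriv h₁ a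
    obtain ⟨c₂, d₂⟩ := line_deriv h₂ b
    have hc : Continuous fun s : ℝ => (u₁ + s • a, u₂ + s • b) := by fun_prop
    have hm' : IsLocalMin (fun s : ℝ => ‖G₁ (u₁ + s • a) - G₂ (u₂ + s • b)‖ ^ 2) 0 :=
      IsLocalMin.comp_continuous (g := fun s : ℝ => (u₁ + s • a, u₂ + s • b))
        (f := fun y : E2 × E2 => ‖G₁ y.1 - G₂ y.2‖ ^ 2) (by simpa using hm) hc.continuousAt
    have e1 := (c₁.and c₂).mono fun s hs => (hs.1.sub hs.2).norm_sq
    have e2 := ((c₁.self_of_nhds.sub c₂.self_of_nhds).inner ℝ (d₁.sub d₂)).const_mul 2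
    have e3 := second_nonneg hm' e1 e2
    have e4 := hm'.hasDerivAt_eq_zero e1.self_of_nhds
    simp only [Pi.sub_apply, zero_smul, add_zero, real_inner_self_eq_norm_sq, ← hw] at e3 e4
    constructor <;> linarith
  have hn0 : 0 < ‖w‖ := norm_pos_iff.2 h0
  have hn1 : ‖‖w‖⁻¹ • w‖ = 1 := by rw [norm_smul, norm_inv, norm_norm, inv_mul_cancel₀ hn0.ne']
  obtain ⟨e, he⟩ := exists_frame hn1
  obtain ⟨a, ha, hA⟩ := exists_lift_frame i₁ hn1
    (fun v => by rw [real_inner_smul_left]; simpa using Or.inr (by simpa using (key v 0).1)) he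
  obtain ⟨b, hb, hB⟩ := exists_lift_frame i₂ hn1
    (fun v => by rw [real_inner_smul_left]; simpa using Or.inr (by simpa using (key 0 v).1)) he
  simp only [real_inner_smul_left, ← Finset.mul_sum] at hA hB
  rw [inner_sub_right, mul_left_cancel₀ (inv_pos.2 hn0).ne' hA,
    mul_left_cancel₀ (inv_pos.2 hn0).ne' hB, ← Finset.sum_sub_distrib]
  refine Finset.sum_nonneg fun k _ => ?_
  have := (key (a k) (b k)).2
  rw [ha, hb, inner_sub_right] at this
  simpa using this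

end Vale.Agent.P218UZ
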