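import Vale.Agent.P218UZ.Flow
import Vale.Agent.P218UA.Props3
import Vale.Agent.P218GA.Jac

/-! Assembly: uniqueness of tangent flows of smooth flows of closed embedded surfaces, from the
blocks of the teams P218 and P218U. -/

open MeasureTheory Set Filter Topology Metric
open scoped Manifold ContDiff RealInnerProductSpace ENNReal NNReal Pointwise

namespace Vale.Agent.P218UZ

open Vale.Agent.P218 Vale.Agent.P218UA Vale.Agent.P218ST
open Vale.Agent.P218.H63 (lap)
open Vale.Agent.P218GA (cH hausdorff_eq_smul HasCylConeEnds)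

theorem shape (h1 : M1Stmt) (h2 : DensStmt) (h3 : LimStmt) (h4 : EndsStmt) (h5 : FormatStmt)
    (hT : Tan) : ShapeStmt := by
  intro w a A C ha hw
  obtain ⟨s, ν, hs, hZ⟩ := h1 w a A C ha hw
  obtain ⟨W, hW, rfl, hL, -⟩ := h3 w a A C ha hw s ν hs (h2 w a A C ha hw s ν hs hZ)
  obtain ⟨D, hD⟩ := h4 W A C hW hw.one_le hw.one_le' (hT.ratio w a A ha hw.toIsARFlow s _ hs) hL
  exact ⟨s, W, hs, hW, h5 W D hW hD⟩

lemma gradient_translate (f : E3 → ℝ) (x₀ : E3) :
    (gradient fun x => f (x₀ + x)) = fun x => gradient f (x₀ + x) := by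
  ext1 x
  simp only [gradient, fderiv_comp_add_left]

lemma isFlow_translate {w : ℝ → E3 → ℝ} {T : ℝ} (h : IsFlow w (Ioo 0 T)) (x₀ : E3) :
    IsFlow (fun t x => w (T + t) (x₀ + x)) (Ioo (-T) 0) := by
  have hm : ∀ t ∈ Ioo (-T) 0, T + t ∈ Ioo 0 T := fun t ht => ⟨by linarith [ht.1], by linarith [ht.2]⟩
  have hc : ContDiff ℝ ∞ fun p : ℝ × E3 => (T + p.1, x₀ + p.2) := by fun_prop
  refine ⟨isOpen_Ioo, ordConnected_Ioo, h.smooth.comp hc.contDiffOn fun p hp => ⟨hm _ hp.1, trivial⟩,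
    fun t ht x hx => ?_, fun t ht x hx => ?_⟩
  · filter_upwards [(hc.continuous.tendsto (t, x)).eventually (h.eik _ (hm t ht) _ hx)] with p hp
    rw [gradient_translate]
    exact hp
  · rw [lap, gradient_translate, fderiv_comp_add_left (f := gradient (w (T + t))),
      deriv_comp_const_add (fun s => w s (x₀ + x))]
    exact h.eqn _ (hm t ht) _ hx

lemma isSmoothShrinker {W : E3 → ℝ} (h : IsShr W) : IsSmoothShrinker {x | W x = 0} W := by
  refine ⟨h.smooth, fun _ => Iff.rfl, fun x hx h0 => ?_, fun x hx => ?_⟩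
  · simpa [h0] using (h.eik x hx).self_of_nhds
  · have dG := ((cdAt_gradient (x := x) (h.smooth.contDiffAt.of_le (by norm_cast))).differentiableAt
      one_ne_zero).hasFDerivAt
    have e1 := dG.norm_sq.unique ((hasFDerivAt_const (1 : ℝ) x).congr_of_eventuallyEq
      ((h.eik x hx).mono fun y hy => by simp [hy]))
    have e2 : ⟪gradient W x, fderiv ℝ (gradient W) x (gradient W x)⟫ = 0 := by
      simpa using congrArg (fun L : E3 →L[ℝ] ℝ => L (gradient W x)) e1
    rw [(h.eik x hx).self_of_nhds, real_inner_comm, e2, h.eqn x hx]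
    ring

lemma resc_meas (Z : Set E3) (x₀ : E3) (c : ℝ) :
    ENNReal.ofReal (c ^ 2) • ((μH[(2 : ℕ)] : Measure E3).restrict Z).map (fun x => c • (x - x₀))
      = cH 2 • scal ((μHE[2] : Measure E3).restrict {x | x₀ + x ∈ Z}) c := by
  have h1 : ((μH[(2 : ℕ)] : Measure E3).restrict Z).map (fun x => x - x₀)
      = (μH[(2 : ℕ)] : Measure E3).restrict {x | x₀ + x ∈ Z} := by
    have e : (μH[(2 : ℕ)] : Measure E3).map (fun x => x - x₀) = μH[(2 : ℕ)] :=
      (IsometryEquiv.subRight x₀).measurePreserving_hausdorffMeasure _ |>.map_eq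
    conv_rhs => rw [← e]
    rw [MeasurableEmbedding.restrict_map (f := fun x : E3 => x - x₀)
      (MeasurableEquiv.subRight x₀).measurableEmbedding]
    congr 2
    ext x
    simp
  have h2 : (fun x : E3 => c • (x - x₀)) = (fun x => c • x) ∘ fun x => x - x₀ := rfl
  rw [h2, ← Measure.map_map (by fun_prop) (by fun_prop), h1, hausdorff_eq_smul,
    Measure.restrict_smul, Measure.map_smul, scal, smul_comm]

lemma weakTendsto_smul {u : ℕ → Measure E3} {ν : Measure E3} (h : WeakTendsto u ν) (c : ℝ≥0) :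
    WeakTendsto (fun i => c • u i) (c • ν) := fun φ hφ hc => by
  simp only [integral_smul_nnreal_measure]
  exact (h φ hφ hc).const_smul c

lemma locFin_scal {ν : Measure E3} (h : IsLocallyFiniteMeasure ν) {c : ℝ} (hc : c ≠ 0) (k : ℝ≥0) :
    IsLocallyFiniteMeasure (k • scal ν c) := by
  have h1 : IsFiniteMeasureOnCompacts (ν.map fun x => c • x) :=
    Measure.IsFiniteMeasureOnCompacts.map ν (Homeomorph.smulOfNeZero c hc)
  have h2 : scal ν c = (c ^ 2).toNNReal • ν.map fun x => c • x := rfl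
  rw [h2]
  infer_instance

/-- the conclusion for a flow given by a signed distance function -/
theorem final_flow (hC : Calc) (hM : Mono) (hT : Tan) (hL : LGBFlowStmt) (hS : ShapeStmt)
    (hB : BrakkeStmt) (hmain : MainSmooth) {w : ℝ → E3 → ℝ} {T : ℝ} (hT0 : 0 < T)
    (hw : IsFlow w (Ioo (-T) 0))
    (hk : ∀ a b, -T < a → b < 0 → IsCompact {p : ℝ × E3 | p.1 ∈ Icc a b ∧ w p.1 p.2 = 0})
    (hc : ∀ t ∈ Ioo (-T) 0, IsPreconnected {x | w t x = 0}) :
    ∃ W, IsShr W ∧ HasCylConeEnds {x | W x = 0} ∧ ∀ lam : ℕ → ℝ, Tendsto lam atTop atTop →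
      ∀ s < 0, WeakTendsto (fun i => ar (resc w (lam i)⁻¹ s)) (scal (ar W) √(-s)) := by
  obtain ⟨A, hA⟩ := hM.ratio w _ hw (-T / 2) ⟨by linarith, by linarith⟩
    fun b hb => hk _ _ (by linarith) hb.2
  have eI : Ioo (-T) 0 ∩ Ioi (-T / 2) = Ioo (-T / 2) 0 := by
    ext t
    exact ⟨fun h => ⟨h.2, h.1.2⟩, fun h => ⟨⟨by linarith [h.1], h.2⟩, h.1⟩⟩
  rw [eI] at hA
  have ha : -T / 2 < 0 := by linarith
  obtain ⟨C, hG⟩ := hL w _ A hA (fun a ha b hb => hk _ _ (by linarith [ha.1]) hb.2)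
    fun t ht => hc t ⟨by linarith [ht.1], ht.2⟩
  obtain ⟨σ, W, hσ, hW, hE⟩ := hS w _ A C ha hG
  refine ⟨W, hW, hE, ?_⟩
  have hb := hB w _ A hA (-T / 4) 0 (by linarith) (fun t ht => ⟨by linarith [ht.1], ht.2⟩)
    fun b hb => hk _ _ (by linarith) hb
  set μ : ℝ → Measure E3 := fun t => if t < 0 - -T / 4 then
    (μH[(2 : ℕ)] : Measure E3).restrict {x | w (-T / 4 + t) x = 0} else 0 with hμ
  have hr : ∀ lam s : ℝ, 0 < lam → s < 0 →
      rescaled 2 μ 0 (T / 4) lam s = cH 2 • ar (resc w lam⁻¹ s) := fun lam s hl hs => by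
    have h1 : T / 4 + s / lam ^ 2 < 0 - -T / 4 := by
      have := div_neg_of_neg_of_pos hs (pow_pos hl 2)
      linarith
    have h2 : -T / 4 + (T / 4 + s / lam ^ 2) = lam⁻¹ ^ 2 * s := by field_simp; ring
    rw [rescaled, hμ]
    simp only [h1, if_true, h2]
    rw [resc_meas, hT.ar_resc w _ s (inv_pos.2 hl), inv_inv]
    simp [ar]
  have htf : ∀ σ ν, TanSeq w σ ν →
      IsTangentFlow 2 μ 0 (T / 4) fun s => cH 2 • scal ν √(-s) := fun σ ν h =>
    ⟨fun s hs => locFin_scal h.locFin (Real.sqrt_pos.2 (neg_pos.2 hs)).ne' _,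
      fun i => (σ i)⁻¹, tendsto_inv_nhdsGT_zero.comp
        (tendsto_nhdsWithin_iff.2 ⟨h.lim, Eventually.of_forall h.pos⟩), fun s hs => by
      simp only [fun i => hr _ s (inv_pos.2 (h.pos i)) hs, inv_inv]
      exact weakTendsto_smul (hT.slow w _ A ha hA σ ν h _ s hs tendsto_const_nhds) _⟩
  have hs1 : ∀ ν : Measure E3, scal ν √(- -1) = ν := fun ν => by simp [scal]
  have hfin : μ 0 univ < ⊤ := by
    have h1 : (0 : ℝ) < 0 - -T / 4 := by linarith
    have ht : -T / 4 + 0 ∈ Ioo (-T) 0 := ⟨by linarith, by linarith⟩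
    have h2 := hC.locFin _ (hC.slice w _ hw _ ht)
    have h3 : IsCompact {x | w (-T / 4 + 0) x = 0} := by
      convert (hk _ _ ht.1 ht.2).image continuous_snd using 1
      ext x
      exact ⟨fun h => ⟨(_, x), ⟨⟨le_rfl, le_rfl⟩, h⟩, rfl⟩, fun ⟨p, hp, e⟩ => by
        have := hp.2
        rwa [le_antisymm hp.1.2 hp.1.1, e] at this⟩
    have h4 := h3.measure_lt_top (μ := ar (w (-T / 4 + 0)))
    rw [ar, Measure.restrict_apply_self] at h4
    simp only [hμ, h1, if_true, Measure.restrict_apply_univ]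
    rw [hausdorff_eq_smul, Measure.smul_apply]
    exact ENNReal.mul_lt_top ENNReal.coe_lt_top h4
  have hSW : (μH[(2 : ℕ)] : Measure E3).restrict {x | W x = 0} = cH 2 • ar W := by
    rw [hausdorff_eq_smul, Measure.restrict_smul, ar]
  have hU := (hmain _ W (isSmoothShrinker hW) hE μ hb hfin 0 (T / 4) (by linarith)
    ⟨_, htf σ _ hσ, by rw [hs1, hSW]⟩).2
  intro lam hlam s hs φ hφ hφc
  refine tendsto_of_subseq_tendsto fun ns hns => ?_
  obtain ⟨N, hN⟩ := eventually_atTop.1 ((hlam.comp hns).eventually (eventually_gt_atTop 0))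
  obtain ⟨ψ, ν, hψ, hν⟩ := hT.compact w _ A ha hA (fun i => (lam (ns (i + N)))⁻¹)
    (fun i => inv_pos.2 (hN _ (Nat.le_add_left N i)))
    (tendsto_inv_atTop_zero.comp ((hlam.comp hns).comp (tendsto_add_atTop_nat N)))
  have h1 := hU _ (htf _ ν hν)
  rw [hs1, hSW] at h1
  have h2 : ν = ar W := by
    have := congrArg (fun m : Measure E3 => (cH 2)⁻¹ • m) h1
    simpa [smul_smul, (Vale.Agent.P218GA.cH_pos 2).ne'] using this
  exact ⟨fun i => ψ i + N, h2 ▸ hT.slow w _ A ha hA _ ν hν _ s hs tendsto_const_nhds φ hφ hφc⟩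

variable {M : Type*} [TopologicalSpace M] [ChartedSpace E2 M] [IsManifold (𝓡 2) ∞ M]
  [T2Space M] [CompactSpace M] [ConnectedSpace M]

/-- **Uniqueness of tangent flows of smooth flows of closed embedded surfaces**, from the blocks -/
theorem final (hC : Calc) (hM : Mono) (hT : Tan) (hL : LGBFlowStmt) (hS : ShapeStmt)
    (hB : BrakkeStmt) (hmain : MainSmooth) (F : ℝ → M → E3) (T : ℝ) (hT0 : 0 < T)
    (hF : IsSmoothMCF F T) (h0 : Function.Injective (F 0)) (μ : ℝ → Measure E3)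
    (hμ : ∀ t ∈ Ico 0 T, μ t = (μH[2] : Measure E3).restrict (range (F t))) (x₀ : E3) :
    TangentFlowUnique 2 μ x₀ T ∧
      ∃ (S : Set E3) (Φ : E3 → ℝ), IsSmoothShrinker S Φ ∧ HasCylConeEnds S ∧
        ∀ s < 0, ∀ φ : E3 → ℝ, Continuous φ → HasCompactSupport φ →
          Tendsto (fun lam : ℝ => ∫ x, φ x ∂(rescaled 2 μ x₀ T lam s)) atTop
            (𝓝 (∫ x in √(-s) • S, φ x ∂μH[2])) := by
  obtain ⟨w, hw, hz⟩ := hF.exists_isFlow hT0 h0
  have hm : ∀ t ∈ Ioo (-T) 0, T + t ∈ Ioo 0 T := fun t ht => ⟨by linarith [ht.1], by linarith [ht.2]⟩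
  obtain ⟨W, hW, hE, hconv⟩ := final_flow hC hM hT hL hS hB hmain hT0 (isFlow_translate hw x₀)
    (fun a b ha hb => by
      have h1 := (hF.isCompact_track hz (a := T + a) (b := T + b) (by linarith) (by linarith)).image
        (f := fun p : ℝ × E3 => (p.1 - T, p.2 - x₀)) (by fun_prop)
      convert h1 using 1
      ext ⟨t, x⟩
      refine ⟨fun h => ⟨(T + t, x₀ + x), ⟨⟨?_, ?_⟩, h.2⟩, by simp⟩, ?_⟩
      · linarith [h.1.1]
      · linarith [h.1.2]
      · rintro ⟨⟨s, y⟩, hp, e⟩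
        obtain ⟨rfl, rfl⟩ := Prod.mk.inj e
        exact ⟨⟨by linarith [hp.1.1], by linarith [hp.1.2]⟩, by simpa using hp.2⟩)
    fun t ht => by
      convert (hF.isPreconnected_slice hz (hm t ht)).image (fun x => x - x₀) (by fun_prop) using 1
      ext x
      exact ⟨fun h => ⟨x₀ + x, h, by simp⟩, fun ⟨y, hy, e⟩ => by simpa [← e] using hy⟩
  have e2 : (μH[2] : Measure E3) = μH[(2 : ℕ)] := by norm_num
  have key : ∀ lam : ℕ → ℝ, Tendsto lam atTop atTop → ∀ s < 0,
      WeakTendsto (fun i => rescaled 2 μ x₀ T (lam i) s)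
        ((μH[2] : Measure E3).restrict (√(-s) • {x | W x = 0})) := by
    intro lam hlam s hs φ hφ hφc
    have hq : 0 < √(-s) := Real.sqrt_pos.2 (neg_pos.2 hs)
    have e3 : (μH[2] : Measure E3).restrict (√(-s) • {x | W x = 0}) = cH 2 • scal (ar W) √(-s) := by
      have := hT.ar_resc (fun _ => W) (√(-s))⁻¹ 0 (inv_pos.2 hq)
      rw [inv_inv] at this
      rw [← this, e2, hausdorff_eq_smul, Measure.restrict_smul, ar]
      congr 2
      ext x
      simp [resc, mem_smul_set_iff_inv_smul_mem₀ hq.ne', hq.ne']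
    rw [e3]
    refine (weakTendsto_smul (hconv lam hlam s hs) (cH 2) φ hφ hφc).congr' ?_
    have h1 : Tendsto (fun i => s / lam i ^ 2) atTop (𝓝 0) :=
      ((tendsto_pow_atTop two_ne_zero).comp hlam).const_div_atTop s
    filter_upwards [hlam.eventually (eventually_gt_atTop 0),
      h1.eventually (lt_mem_nhds (neg_neg_of_pos hT0))] with i hi hi'
    have ht : s / lam i ^ 2 ∈ Ioo (-T) 0 := ⟨hi', div_neg_of_neg_of_pos hs (pow_pos hi 2)⟩
    have h2 : (lam i)⁻¹ ^ 2 * s = s / lam i ^ 2 := by field_simp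
    rw [rescaled, hμ _ (Ioo_subset_Ico_self (hm _ ht)), ← hz _ (hm _ ht), e2, resc_meas,
      hT.ar_resc _ _ s (inv_pos.2 hi), inv_inv, h2]
    rfl
  refine ⟨fun ν ν' hν hν' s hs => ?_, _, W, isSmoothShrinker hW, hE, fun s hs φ hφ hφc =>
    tendsto_iff_seq_tendsto.2 fun lam hlam => key lam hlam s hs φ hφ hφc⟩
  obtain ⟨hl, lam, hlam, h⟩ := hν
  obtain ⟨hl', lam', hlam', h'⟩ := hν'
  have := hl s hs
  have := hl' s hs
  refine Measure.ext_of_integral_eq_on_compactlySupported fun φ => ?_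
  exact (tendsto_nhds_unique (h s hs φ φ.continuous φ.hasCompactSupport)
    (key lam hlam s hs φ φ.continuous φ.hasCompactSupport)).trans
    (tendsto_nhds_unique (key lam' hlam' s hs φ φ.continuous φ.hasCompactSupport)
      (h' s hs φ φ.continuous φ.hasCompactSupport))

end Vale.Agent.P218UZ
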