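import Vale.Agent.P218UK.Time
import Vale.Agent.P218UE.Basic

/-! Scaling of measures; tangent flows are close to parallel planes at small scales. -/

open MeasureTheory Set Filter Topology Metric
open scoped ENNReal NNReal RealInnerProductSpace ContDiff

namespace Vale.Agent.P218UZ

open Vale.Agent.P218 (WeakTendsto)
open Vale.Agent.P218.H63 (lap hessSq)
open Vale.Agent.P218UA

lemma integral_scal (ν : Measure E3) {c : ℝ} (hc : 0 < c) (f : E3 → ℝ) :
    ∫ y, f y ∂(scal ν c) = c ^ 2 * ∫ y, f (c • y) ∂ν := by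
  rw [scal, integral_smul_measure, MeasurableEmbedding.integral_map (f := fun x : E3 => c • x)
    (Homeomorph.smulOfNeZero c hc.ne').measurableEmbedding, ENNReal.toReal_ofReal (sq_nonneg c)]
  rfl

lemma scal_arg {c r : ℝ} (hc : 0 < c) (y z : E3) : (c * r)⁻¹ • (c • y - c • z) = r⁻¹ • (y - z) := by
  rw [← smul_sub, smul_smul, mul_inv, mul_assoc, mul_comm r⁻¹, ← mul_assoc, inv_mul_cancel₀ hc.ne',
    one_mul]

lemma test_scal (ν : Measure E3) {c : ℝ} (hc : 0 < c) (φ : E3 → ℝ) (z : E3) (r : ℝ) :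
    (∫ y, φ ((c * r)⁻¹ • (y - c • z)) ∂(scal ν c)) / (c * r) ^ 2
      = (∫ y, φ (r⁻¹ • (y - z)) ∂ν) / r ^ 2 := by
  simp only [integral_scal ν hc, scal_arg hc, mul_pow]
  exact mul_div_mul_left _ _ (pow_pos hc 2).ne'

lemma nearPl_scal {ν : Measure E3} {c : ℝ} (hc : 0 < c) {z : E3} {r L δ : ℝ} :
    NearPl (scal ν c) (c • z) (c * r) L δ ↔ NearPl ν z r L δ := by
  simp only [NearPl, test_scal ν hc]

lemma gd_scal (ν : Measure E3) {c : ℝ} (hc : 0 < c) (z : E3) (r : ℝ) :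
    gd (scal ν c) (c • z) (c * r) = gd ν z r := by
  have e : ∀ y : E3, -‖c • y - c • z‖ ^ 2 / (4 * (c * r) ^ 2) = -‖y - z‖ ^ 2 / (4 * r ^ 2) := fun y => by
    rw [← smul_sub, norm_smul, Real.norm_eq_abs, mul_pow, sq_abs, mul_pow, mul_left_comm, ← mul_neg,
      mul_div_mul_left _ _ (pow_pos hc 2).ne']
  simp only [gd, integral_scal ν hc, e]
  rw [mul_pow, mul_left_comm (4 * Real.pi), mul_div_mul_left _ _ (pow_pos hc 2).ne']

lemma AR_scal {ν : Measure E3} {A c : ℝ} (h : AR ν A) (hc : 0 < c) : AR (scal ν c) A := by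
  intro x r hr
  have e : (fun y : E3 => c • y) ⁻¹' closedBall x r = closedBall (c⁻¹ • x) (r / c) := by
    ext y
    rw [mem_preimage, mem_closedBall_iff_norm, mem_closedBall_iff_norm, le_div_iff₀ hc,
      show c • y - x = c • (y - c⁻¹ • x) by rw [smul_sub, smul_inv_smul₀ hc.ne'], norm_smul,
      Real.norm_eq_abs, abs_of_pos hc, mul_comm]
  rw [scal, Measure.smul_apply, Measure.map_apply (by fun_prop) measurableSet_closedBall, e,
    smul_eq_mul]
  refine (mul_le_mul_right (h _ _ (div_pos hr hc)) _).trans_eq ?_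
  rw [← ENNReal.ofReal_mul (sq_nonneg c)]
  congr 1
  field_simp

lemma tanSeq_comp {w : ℝ → E3 → ℝ} {s : ℕ → ℝ} {ν : Measure E3} (h : TanSeq w s ν) {ψ : ℕ → ℕ}
    (hψ : Tendsto ψ atTop atTop) : TanSeq w (s ∘ ψ) ν :=
  ⟨fun _ => h.pos _, h.lim.comp hψ, h.locFin, fun φ h1 h2 => (h.weak φ h1 h2).comp hψ⟩

lemma ev_lt {w : ℝ → E3 → ℝ} {s : ℕ → ℝ} {ν : Measure E3} (h : TanSeq w s ν) {a : ℝ} (ha : a < 0)
    (b : ℝ) : ∀ᶠ i in atTop, a / s i ^ 2 < b := by
  have h1 : Tendsto (fun i => b * s i ^ 2) atTop (𝓝 (b * 0 ^ 2)) := (h.lim.pow 2).const_mul b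
  filter_upwards [h1.eventually (lt_mem_nhds (show a < b * 0 ^ 2 by simpa using ha))] with i hi
  rwa [div_lt_iff₀ (pow_pos (h.pos i) 2)]

/-- times with bounded curvature energy -/
lemma exists_times (h1 : Calc) (h2 : Mono) (hT : Tan) {w : ℝ → E3 → ℝ} {a A C : ℝ} (ha : a < 0)
    (hw : IsGood w (Ioo a 0) A C) {s : ℕ → ℝ} {ν : Measure E3} (hs : TanSeq w s ν) {ρ : ℝ}
    (hρ : 0 < ρ) : ∃ (W : ℕ → E3 → ℝ) (c E : ℝ), 1 ≤ c ∧ c ≤ 2 ∧
      WeakTendsto (fun i => ar (W i)) (scal ν c) ∧ ∀ᶠ i in atTop, IsSurf (W i) ∧ AR (ar (W i)) A ∧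
        ∫ x in ball 0 ρ, hessSq (W i) x ∂(ar (W i)) ≤ E := by
  obtain ⟨K, hK0, hK⟩ := P218UK.en_Ioc h1 h2
  have hg := fun i => hT.resc_good w a A C hw (s i) (hs.pos i)
  have hex : ∀ i, ∃ t ∈ Icc (-2 : ℝ) (-1), a / s i ^ 2 < -2 →
      P218UK.en (resc w (s i)) (2 * ρ) t ≤ ENNReal.ofReal (K * A * ((2 * ρ) ^ 2 + 1)) := fun i => by
    by_cases hi : a / s i ^ 2 < -2
    · have hI : Ioc (-2 : ℝ) (-1) ⊆ Ioo (a / s i ^ 2) 0 := fun t ht =>
        ⟨hi.trans ht.1, ht.2.trans_lt (by norm_num)⟩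
      have hv : volume (Ioc (-2 : ℝ) (-1)) = 1 := by norm_num
      obtain ⟨t, ht, h⟩ := exists_le_setLAverage (μ := volume) (s := Ioc (-2 : ℝ) (-1))
        (by simp [hv]) (by simp) ((P218UK.en_meas h1 (hg i).toIsFlow (2 * ρ)).mono_set hI)
      refine ⟨t, Ioc_subset_Icc_self ht, fun _ => h.trans ?_⟩
      rw [setLAverage_eq, hv, div_one]
      exact (hK _ _ A (hg i).toIsARFlow (2 * ρ) (-2) (-1) (by linarith) ⟨hi, by norm_num⟩
        ⟨by linarith, by norm_num⟩ (by norm_num)).trans_eq (by norm_num)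
    · exact ⟨-1, ⟨by norm_num, le_rfl⟩, fun h => (hi h).elim⟩
  choose t ht hE using hex
  obtain ⟨t', ht', ψ, hψ, hlim⟩ := isCompact_Icc.tendsto_subseq ht
  refine ⟨fun i => resc w (s (ψ i)) (t (ψ i)), √(-t'), C * (1 + K * A * ((2 * ρ) ^ 2 + 1)),
    Real.one_le_sqrt.2 (by linarith [ht'.2]), Real.sqrt_le_iff.2 ⟨by norm_num, by linarith [ht'.1]⟩,
    hT.slow w a A ha hw.toIsARFlow _ ν (tanSeq_comp hs hψ.tendsto_atTop) _ t'
      (by linarith [ht'.2]) hlim, ?_⟩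
  filter_upwards [hψ.tendsto_atTop.eventually (ev_lt hs ha (-2))] with i hi
  have hm : t (ψ i) ∈ Ioo (a / s (ψ i) ^ 2) 0 :=
    ⟨hi.trans_le (ht _).1, (ht _).2.trans_lt (by norm_num)⟩
  refine ⟨h1.slice _ _ (hg _).toIsFlow _ hm, (hg _).ratio _ hm, ((hg _).lgb _ hm 0 ρ hρ).trans ?_⟩
  have hA := hw.one_le
  have hC := hw.one_le'
  rw [P218UK.en_toReal h1 (hg _).toIsFlow _ hm]
  have := ENNReal.toReal_le_of_le_ofReal (by positivity) (hE _ hi)
  gcongr

/-- one of finitely many nested annuli has small energy -/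
lemma exists_small {μ : Measure E3} {f : E3 → ℝ} (hf : ∀ x, 0 ≤ f x) {p : E3} {b : ℕ → ℝ}
    (hb : Antitone b) (hi : IntegrableOn f (ball p (b 0)) μ) {E ε : ℝ}
    (hE : ∫ x in ball p (b 0), f x ∂μ ≤ E) {N : ℕ} (hN : E < N * ε) :
    ∃ j < N, ∫ x in ball p (b j) \ ball p (b (j + 1)), f x ∂μ ≤ ε := by
  by_contra h
  push Not at h
  have h1 : ∀ j ∈ Finset.range N,
      ε ≤ ∫ x in ball p (b j), f x ∂μ - ∫ x in ball p (b (j + 1)), f x ∂μ := fun j hj => by
    rw [← setIntegral_sdiff measurableSet_ball (hi.mono_set (ball_subset_ball (hb (Nat.zero_le j))))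
      (ball_subset_ball (hb (Nat.le_succ j)))]
    exact (h j (Finset.mem_range.1 hj)).le
  have h2 := Finset.sum_le_sum h1
  rw [Finset.sum_range_sub' (fun j => ∫ x in ball p (b j), f x ∂μ), Finset.sum_const,
    Finset.card_range, nsmul_eq_mul] at h2
  have h3 : 0 ≤ ∫ x in ball p (b N), f x ∂μ := integral_nonneg hf
  linarith

theorem flat (h1 : Calc) (h2 : Mono) (hT : Tan) (hF : FLStmt) : FlatStmt := by
  intro w a A C ha hw s ν hs R L δ hδ
  by_contra hne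
  push Not at hne
  obtain ⟨ε, hε, κ, hκ, L', hL', hFL⟩ := hF A L (δ / 2) (half_pos hδ)
  choose z hz r hr0 hr1 hbad using fun k : ℕ => hne (1 / ((k : ℝ) + 1)) Nat.one_div_pos_of_nat
  obtain ⟨p, hp, ψ, hψ, hlim⟩ := (isCompact_closedBall (0 : E3) R).tendsto_subseq
    (x := z) fun k => mem_closedBall_zero_iff.2 (hz k)
  have hr : Tendsto (r ∘ ψ) atTop (𝓝 0) :=
    (squeeze_zero (fun k => (hr0 k).le) (fun k => (hr1 k).le)
      tendsto_one_div_add_atTop_nhds_zero_nat).comp hψ.tendsto_atTop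
  have hstep : ∀ b : ℝ, ∃ k, 0 < b → ‖z k - p‖ + L' * r k ≤ b ∧ κ * r k ≤ b := fun b => by
    by_cases hb : 0 < b
    · have e1 := (tendsto_iff_norm_sub_tendsto_zero.1 hlim).add (hr.const_mul L')
      have e2 := hr.const_mul κ
      rw [mul_zero] at e1 e2
      rw [add_zero] at e1
      obtain ⟨k, hk⟩ := ((e1.eventually (ge_mem_nhds hb)).and (e2.eventually (ge_mem_nhds hb))).exists
      exact ⟨ψ k, fun _ => hk⟩
    · exact ⟨0, fun h => (hb h).elim⟩
  choose k hk using hstep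
  let b : ℕ → ℝ := fun j => Nat.rec 1 (fun _ x => κ * r (k x)) j
  have hb1 : ∀ j, b (j + 1) = κ * r (k (b j)) := fun _ => rfl
  have hb0 : ∀ j, 0 < b j := fun j => by
    cases j
    · exact one_pos
    · exact mul_pos hκ (hr0 _)
  have hR : 0 ≤ R := (norm_nonneg _).trans (hz 0)
  obtain ⟨W, c, E, hc1, hc2, hweak, hW⟩ := exists_times h1 h2 hT ha hw hs
    (show 0 < 2 * R + 2 by linarith)
  have hc : 0 < c := by linarith
  obtain ⟨N, hN⟩ := exists_nat_gt (E / ε)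
  have hnear := (eventually_all_finset (Finset.range N)).2 fun j _ =>
    hT.near_lim _ _ A (hW.mono fun i hi => hi.2.1)
      (AR_scal (hT.ratio w a A ha hw.toIsARFlow s ν hs) hc) hweak (2 * R) (c * r (k (b j)))
      (c * r (k (b j))) L (δ / 2) (mul_pos hc (hr0 _)) (half_pos hδ)
  obtain ⟨i, ⟨hS, hA, hE⟩, hi⟩ := (hW.and hnear).exists
  have hlf := h1.locFin _ hS
  have hcd := P218UK.surf_cd2 hS
  have hint : ∀ (x : E3) (ρ : ℝ), IntegrableOn (hessSq (W i)) (ball x ρ) (ar (W i)) := fun x ρ =>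
    ((P218UE.continuous_hessSq hcd).continuousOn.integrableOn_compact
      (isCompact_closedBall x ρ)).mono_set ball_subset_closedBall
  have hnn : ∀ x, 0 ≤ hessSq (W i) x := fun x => P218UE.hessSq_nonneg hcd.contDiffAt
  have hn : ∀ x : E3, ‖c • x‖ = c * ‖x‖ := fun x => by
    rw [norm_smul, Real.norm_eq_abs, abs_of_pos hc]
  obtain ⟨j, hj, hsm⟩ := exists_small (μ := ar (W i)) hnn (p := c • p) (b := fun j => c * b j)
    (fun i j hij => mul_le_mul_of_nonneg_left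
      (antitone_nat_of_succ_le (fun j => (hk _ (hb0 j)).2) hij) hc.le) (hint _ _)
    ((setIntegral_mono_set (hint _ _) (Eventually.of_forall hnn) (LE.le.eventuallyLE
      (ball_subset_ball' (by
        have := mem_closedBall_zero_iff.1 hp
        rw [dist_zero_right, hn]
        change c * 1 + _ ≤ _
        nlinarith [norm_nonneg p])))).trans hE) ((div_lt_iff₀ hε).1 hN)
  obtain ⟨n, m, h, hn1, hφ⟩ := hFL _ hS hA (c • z (k (b j))) (c • p) (c * r (k (b j)))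
    (mul_pos hc (hr0 _)) ((setIntegral_mono_set ((hint _ _).mono_set sdiff_subset)
      (Eventually.of_forall hnn) (LE.le.eventuallyLE (sdiff_subset_sdiff
        (ball_subset_ball' (by
          rw [dist_eq_norm, ← smul_sub, hn]
          nlinarith [(hk _ (hb0 j)).1]))
        (ball_subset_ball (by rw [hb1]; exact le_of_eq (by ring)))))).trans hsm)
  refine hbad (k (b j)) ((nearPl_scal hc).1 ⟨n, m, h, hn1, fun φ hφ' => ?_⟩)
  have e1 := abs_le.1 (hφ φ hφ')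
  have e2 := abs_le.1 (hi j (Finset.mem_range.2 hj) (c • z (k (b j)))
    (by rw [hn]; nlinarith [hz (k (b j)), norm_nonneg (z (k (b j)))]) _ ⟨le_rfl, le_rfl⟩ φ hφ')
  rw [abs_le]
  constructor <;> linarith [e1.1, e1.2, e2.1, e2.2]

end Vale.Agent.P218UZ
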