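import Mathlib.Analysis.Calculus.BumpFunction.FiniteDimension
import Mathlib.Topology.UrysohnsLemma
import Mathlib.Data.Sign.Basic
import Mathlib.Analysis.Calculus.ContDiff.Operations

/-! A function which is smooth near its zero set and has a locally constant sign elsewhere agrees
near its zero set with a smooth function of the same sign. -/

open Set Filter Topology
open scoped ContDiff

namespace Vale.Agent.P218UZ

lemma sign_comb {a b g : ℝ} (ha : 0 ≤ a) (hb : 0 ≤ b) (hab : 0 < a + b) :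
    SignType.sign ((a * g + b * (SignType.sign g : ℝ)) / (a + b)) = SignType.sign g := by
  rcases lt_trichotomy g 0 with h | h | h
  · rw [sign_neg h]
    refine sign_neg (div_neg_of_neg_of_pos ?_ hab)
    simp only [SignType.coe_neg_one]
    rcases ha.eq_or_lt with h0 | h0 <;> nlinarith
  · simp [h]
  · rw [sign_pos h]
    refine sign_pos (div_pos ?_ hab)
    simp only [SignType.coe_one]
    rcases ha.eq_or_lt with h0 | h0 <;> nlinarith

theorem exists_glue {V : Type*} [NormedAddCommGroup V] [NormedSpace ℝ V] [FiniteDimensional ℝ V]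
    {X : Set V} (hX : IsOpen X) {g : V → ℝ}
    (h0 : ∀ p ∈ X, g p = 0 → ∀ᶠ q in 𝓝 p, ContDiffAt ℝ ∞ g q)
    (h1 : ∀ p ∈ X, g p ≠ 0 → ∀ᶠ q in 𝓝 p, SignType.sign (g q) = SignType.sign (g p)) :
    ∃ w : V → ℝ, ContDiffOn ℝ ∞ w X ∧ (∀ p ∈ X, SignType.sign (w p) = SignType.sign (g p)) ∧
      ∀ p ∈ X, g p = 0 → w =ᶠ[𝓝 p] g := by
  have hA : IsClosed {p : X | g p = 0} := by
    rw [← isOpen_compl_iff, isOpen_iff_mem_nhds]
    intro p hp
    filter_upwards [continuous_subtype_val.continuousAt.eventually (h1 p p.2 hp)] with q hq hq0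
    have hq1 : g q = 0 := hq0
    rw [hq1, sign_zero, eq_comm, sign_eq_zero_iff] at hq
    exact hp hq
  have hB : IsClosed {p : X | ¬∀ᶠ q in 𝓝 (p : V), ContDiffAt ℝ ∞ g q} :=
    (isOpen_setOfPred_eventually_nhds.preimage continuous_subtype_val).isClosed_compl
  obtain ⟨φ, hφ0, hφ1, -⟩ := exists_continuous_zero_one_of_isClosed hA hB
    (disjoint_left.2 fun p hp hp' => hp' (h0 p p.2 hp))
  have hm := hX.isOpenMap_subtype_val
  obtain ⟨a, sa, ca, ra⟩ := (hm _ (isOpen_lt φ.continuous (continuous_const (y := 2 / 3)))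
    ).exists_contDiff_support_eq (n := ⊤)
  obtain ⟨b, sb, cb, rb⟩ := (hm _ (isOpen_lt (continuous_const (y := 1 / 3)) φ.continuous)
    ).exists_contDiff_support_eq (n := ⊤)
  have ha : ∀ p, 0 ≤ a p := fun p => (ra (mem_range_self p)).1
  have hb : ∀ p, 0 ≤ b p := fun p => (rb (mem_range_self p)).1
  have hab : ∀ p ∈ X, 0 < a p + b p := fun p hp => by
    rcases lt_or_ge (φ ⟨p, hp⟩) (2 / 3) with h | h
    · have : p ∈ Function.support a := sa ▸ ⟨⟨p, hp⟩, h, rfl⟩
      exact add_pos_of_pos_of_nonneg ((ha p).lt_of_ne' this) (hb p)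
    · have : p ∈ Function.support b := sb ▸ ⟨⟨p, hp⟩, show 1 / 3 < φ _ by linarith, rfl⟩
      exact add_pos_of_nonneg_of_pos (ha p) ((hb p).lt_of_ne' this)
  have hz : ∀ (p : X) (c : V → ℝ) (S T : Set X), Function.support c = (↑) '' S → T ∈ 𝓝 p →
      Disjoint T S → ∀ᶠ q in 𝓝 (p : V), c q = 0 := fun p c S T hc hT hd => by
    filter_upwards [hm.image_mem_nhds hT] with q hq
    obtain ⟨q, hq, rfl⟩ := hq
    by_contra h
    obtain ⟨q', hq', e⟩ : (q : V) ∈ (↑) '' S := hc ▸ h
    exact disjoint_left.1 hd hq (Subtype.val_injective e ▸ hq')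
  have hw : ∀ p ∈ X, g p = 0 →
      (fun q => (a q * g q + b q * (SignType.sign (g q) : ℝ)) / (a q + b q)) =ᶠ[𝓝 p] g := by
    intro p hp hg
    have e : φ ⟨p, hp⟩ = 0 := hφ0 hg
    filter_upwards [hz ⟨p, hp⟩ b _ {q | φ q < 1 / 3} sb
      ((isOpen_lt φ.continuous continuous_const).mem_nhds (show φ _ < 1 / 3 by rw [e]; norm_num))
      (disjoint_left.2 fun q hq hq' => lt_asymm (a := φ q) hq hq'), hX.mem_nhds hp] with q hq hqX
    have := hab q hqX
    rw [hq, add_zero] at this
    rw [hq]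
    field_simp
    ring
  refine ⟨_, fun p hp => ContDiffAt.contDiffWithinAt ?_,
    fun p hp => sign_comb (ha p) (hb p) (hab p hp), hw⟩
  by_cases hg : g p = 0
  · exact (h0 p hp hg).self_of_nhds.congr_of_eventuallyEq (hw p hp hg)
  refine ContDiffAt.div (ContDiffAt.add ?_ (cb.contDiffAt.mul ?_)) (ca.add cb).contDiffAt
    (hab p hp).ne'
  · by_cases hs : ∀ᶠ q in 𝓝 p, ContDiffAt ℝ ∞ g q
    · exact ca.contDiffAt.mul hs.self_of_nhds
    · have e : φ ⟨p, hp⟩ = 1 := hφ1 hs
      refine (contDiffAt_const (c := (0 : ℝ))).congr_of_eventuallyEq ?_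
      filter_upwards [hz ⟨p, hp⟩ a _ {q | 2 / 3 < φ q} sa
        ((isOpen_lt continuous_const φ.continuous).mem_nhds (show 2 / 3 < φ _ by rw [e]; norm_num))
        (disjoint_left.2 fun q hq hq' => lt_asymm (b := φ q) hq hq')] with q hq
      rw [hq, zero_mul]
  · exact (contDiffAt_const (c := (SignType.sign (g p) : ℝ))).congr_of_eventuallyEq
      ((h1 p hp hg).mono fun q hq => by simp only [hq])

end Vale.Agent.P218UZ
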