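import Vale.Agent.P218UZ.Level
import Vale.Agent.P218UZ.Glue
import Vale.Agent.P218UA.Props

/-! Signed distance functions from local defining functions. -/

open Set Filter Topology Module Metric
open scoped RealInnerProductSpace ContDiff

namespace Vale.Agent.P218UZ

lemma ev_gx_congr {w g : ℝ × E3 → ℝ} {p : ℝ × E3} (h : w =ᶠ[𝓝 p] g) : gx w =ᶠ[𝓝 p] gx g := by
  filter_upwards [h.eventually_nhds] with q hq
  exact EventuallyEq.gradient_eq
    (((Continuous.prodMk_right q.1).tendsto q.2).eventually hq)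

lemma sign_coe (σ : SignType) : SignType.sign (σ : ℝ) = σ := by
  cases σ <;> simp

theorem sdm : Vale.Agent.P218UA.SDMStmt := by
  intro I hI σ hσ
  have hX : IsOpen (I ×ˢ (univ : Set E3)) := hI.prod isOpen_univ
  let Z : ℝ → Set E3 := fun t => {x | σ (t, x) = 0}
  let g : ℝ × E3 → ℝ := fun q => (σ q : ℝ) * infDist q.2 (Z q.1) + if Z q.1 = ∅ then (σ q : ℝ) else 0
  have hloc : ∀ p ∈ I ×ˢ (univ : Set E3), σ p ≠ 0 → ∀ᶠ q in 𝓝 p, σ q = σ p := fun p hp h0 => by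
    obtain ⟨f, U, hU, hpU, hf, hs, -⟩ := hσ p hp
    have hc := (hf.contDiffAt (hU.mem_nhds hpU)).continuousAt
    rw [← hs p hpU] at h0 ⊢
    rcases lt_or_gt_of_ne (sign_ne_zero.1 h0) with h | h
    · filter_upwards [hU.mem_nhds hpU, hc.eventually (gt_mem_nhds h)] with q hq hq'
      rw [← hs q hq, sign_neg hq', sign_neg h]
    · filter_upwards [hU.mem_nhds hpU, hc.eventually (lt_mem_nhds h)] with q hq hq'
      rw [← hs q hq, sign_pos hq', sign_pos h]
  have hsg : ∀ p ∈ I ×ˢ (univ : Set E3), SignType.sign (g p) = σ p := fun p hp => by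
    by_cases h0 : σ p = 0
    · simp [g, h0]
    by_cases hZ : Z p.1 = ∅
    · simp [g, hZ, sign_coe]
    have hcl : IsClosed (Z p.1) := by
      rw [← isOpen_compl_iff, isOpen_iff_mem_nhds]
      intro x hx
      exact (((Continuous.prodMk_right p.1).tendsto x).eventually
        (hloc (p.1, x) ⟨hp.1, trivial⟩ hx)).mono fun y hy hy0 => hx (hy.symm.trans hy0)
    have hd := (hcl.notMem_iff_infDist_pos (nonempty_iff_ne_empty.2 hZ)).1 h0
    simp [g, hZ, sign_mul, sign_pos hd, sign_coe]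
  have hz : ∀ p ∈ I ×ˢ (univ : Set E3), g p = 0 →
      ∀ᶠ q in 𝓝 p, ContDiffAt ℝ ∞ g q ∧ ‖gx g q‖ = 1 := fun p hp h0 => by
    obtain ⟨f, U, hU, hpU, hf, hs, hd⟩ := hσ p hp
    have hf0 : f p = 0 := by rw [← sign_eq_zero_iff, hs p hpU, ← hsg p hp, h0, sign_zero]
    have hf1 : ∀ᶠ q in 𝓝 p, ContDiffAt ℝ ∞ f q :=
      Eventually.mono (hU.mem_nhds hpU) fun q hq => hf.contDiffAt (hU.mem_nhds hq)
    obtain ⟨s, y, hy, h⟩ := exists_level hf1 hf0 fun h =>
      hd hf0 ((InnerProductSpace.toDual ℝ E3).symm.map_eq_zero_iff.1 h)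
    have hs0 : s p = 0 := by rw [← sign_eq_zero_iff, h.self_of_nhds.2.2.1, hf0, sign_zero]
    have h2 : ∀ᶠ q in 𝓝 p, SignType.sign (s q) = σ q ∧ y q ∈ Z q.1 := by
      filter_upwards [h, hU.mem_nhds hpU, hy.eventually (hU.mem_nhds hpU)] with q hq hqU hyU
      exact ⟨hq.2.2.1.trans (hs q hqU), by
        change σ _ = 0
        rw [← hs _ hyU, hq.2.2.2.1, sign_zero]⟩
    have h3 := ev_infDist (Z := Z) hs0 ((h.and h2).mono fun q hq =>
      ⟨hq.1.1, hq.1.2.1, fun hz => sign_eq_zero_iff.1 (hq.2.1.trans hz), _, hq.2.2, hq.1.2.2.2.2⟩)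
    have h4 : g =ᶠ[𝓝 p] s := by
      filter_upwards [h2, h3] with q hq hq'
      have : Z q.1 ≠ ∅ := nonempty_iff_ne_empty.1 ⟨_, hq.2⟩
      simp only [g, this, if_false, add_zero, hq', ← hq.1, sign_mul_abs]
    filter_upwards [h, h4.eventually_nhds, ev_gx_congr h4] with q hq hq' hq''
    exact ⟨hq.1.congr_of_eventuallyEq hq', hq'' ▸ hq.2.1⟩
  obtain ⟨w, hw, hws, hwg⟩ := exists_glue hX (fun p hp h0 => (hz p hp h0).mono fun q hq => hq.1)
    fun p hp h0 => by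
      filter_upwards [hX.mem_nhds hp, hloc p hp (hsg p hp ▸ sign_ne_zero.2 h0)] with q hq hq'
      rw [hsg q hq, hsg p hp, hq']
  refine ⟨fun t x => w (t, x), hw, fun t ht x => (hws _ ⟨ht, trivial⟩).trans (hsg _ ⟨ht, trivial⟩),
    fun t ht x hx => ?_⟩
  have h0 : g (t, x) = 0 := by
    rw [← sign_eq_zero_iff, ← hws _ ⟨ht, trivial⟩, sign_eq_zero_iff]
    exact hx
  filter_upwards [hz _ ⟨ht, trivial⟩ h0, ev_gx_congr (hwg _ ⟨ht, trivial⟩ h0)] with q hq hq'
  exact (congrArg norm hq').trans hq.2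

end Vale.Agent.P218UZ
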