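import Mathlib.Topology.Homotopy.Lifting
import Mathlib.Topology.FiberBundle.Basic
import Mathlib.Topology.Instances.Real.Lemmas
import Mathlib.AlgebraicTopology.FundamentalGroupoid.SimplyConnected

/-! Functions given locally up to sign on a simply connected space can be glued: the local choices
of sign form a double cover, which has a section. -/

open Set Filter Topology

namespace Vale.Agent.P218UZ

variable {X : Type*} [TopologicalSpace X]

/-- `f` and `g` have the same germ at `z` up to sign -/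
def PM (f g : X → ℝ) (z : X) : Prop := f =ᶠ[𝓝 z] g ∨ f =ᶠ[𝓝 z] -g

lemma PM.eventually {f g : X → ℝ} {z : X} (h : PM f g z) : ∀ᶠ y in 𝓝 z, PM f g y := by
  rcases h with h | h
  · exact h.eventuallyEq_nhds.mono fun _ hy => Or.inl hy
  · exact h.eventuallyEq_nhds.mono fun _ hy => Or.inr hy

lemma neg_evEq {f g : X → ℝ} {z : X} (h : f =ᶠ[𝓝 z] -g) : g =ᶠ[𝓝 z] -f :=
  h.mono fun y hy => by simp [hy]

open Classical in
/-- the relative sign of two germs -/
noncomputable def sg (f g : X → ℝ) (z : X) : Bool := decide (f =ᶠ[𝓝 z] g)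

/-- multiplication by the sign `b` -/
def bs (b : Bool) (f : X → ℝ) : X → ℝ := if b then f else -f

lemma not_both {f g : X → ℝ} {z : X} (h0 : ¬ f =ᶠ[𝓝 z] 0) (h : f =ᶠ[𝓝 z] g)
    (h' : f =ᶠ[𝓝 z] -g) : False := by
  refine h0 ?_
  filter_upwards [h, h'] with y hy hy'
  simp only [Pi.neg_apply, Pi.zero_apply] at hy' ⊢
  linarith

lemma sg_spec {f g : X → ℝ} {z : X} (h : PM f g z) : f =ᶠ[𝓝 z] bs (sg f g z) g := by
  by_cases h1 : f =ᶠ[𝓝 z] g
  · simpa [sg, bs, h1] using h1
  · simpa [sg, bs, h1] using h.resolve_left h1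

lemma bs_unique {f g : X → ℝ} {z : X} (h0 : ¬ f =ᶠ[𝓝 z] 0) {b c : Bool}
    (hb : f =ᶠ[𝓝 z] bs b g) (hc : f =ᶠ[𝓝 z] bs c g) : b = c := by
  cases b <;> cases c
  · rfl
  · exact (not_both h0 hc hb).elim
  · exact (not_both h0 hb hc).elim
  · rfl

lemma bs_bs (b c : Bool) (f : X → ℝ) : bs b (bs c f) = bs (b == c) f := by
  cases b <;> cases c <;> simp [bs]

lemma bs_congr {f g : X → ℝ} {z : X} (b : Bool) (h : f =ᶠ[𝓝 z] g) : bs b f =ᶠ[𝓝 z] bs b g := by
  cases b
  · exact h.neg
  · exact h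

lemma bs_pm (b : Bool) (f : X → ℝ) (z : X) : PM (bs b f) f z := by
  cases b
  · exact Or.inr EventuallyEq.rfl
  · exact Or.inl EventuallyEq.rfl

/-- the double cover of the local choices of sign -/
noncomputable def signCore (U : X → Set X) (g : X → X → ℝ) (hU : ∀ x, IsOpen (U x))
    (hx : ∀ x, x ∈ U x) (h0 : ∀ x, ∀ z ∈ U x, ¬ g x =ᶠ[𝓝 z] 0)
    (hpm : ∀ x y, ∀ z ∈ U x ∩ U y, PM (g x) (g y) z) : FiberBundleCore X X Bool where
  baseSet := U
  isOpen_baseSet := hU
  indexAt := id
  mem_baseSet_at := hx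
  coordChange i j z v := v == sg (g i) (g j) z
  coordChange_self i z _ v := by
    have : sg (g i) (g i) z = true := by simp [sg]
    simp [this]
  continuousOn_coordChange i j := by
    have h1 : ContinuousOn (sg (g i) (g j)) (U i ∩ U j) := by
      intro z hz
      refine ContinuousAt.continuousWithinAt ?_
      refine (continuousAt_const (y := sg (g i) (g j) z)).congr ?_
      filter_upwards [(sg_spec (hpm i j z hz)).eventuallyEq_nhds,
        ((hU i).inter (hU j)).mem_nhds hz] with y hy hy'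
      exact bs_unique (h0 i y hy'.1) hy (sg_spec (hpm i j y hy'))
    have h2 : ContinuousOn (fun p : X × Bool => (p.2, sg (g i) (g j) p.1)) ((U i ∩ U j) ×ˢ univ) :=
      continuousOn_snd.prodMk (h1.comp continuousOn_fst fun p hp => hp.1)
    exact (continuous_of_discreteTopology (f := fun q : Bool × Bool => q.1 == q.2)).comp_continuousOn
      h2
  coordChange_comp i j k z hz v := by
    have h1 := sg_spec (hpm i j z hz.1)
    have h2 := sg_spec (hpm j k z ⟨hz.1.2, hz.2⟩)
    have h3 := sg_spec (hpm i k z ⟨hz.1.1, hz.2⟩)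
    have h4 := h1.trans (bs_congr _ h2)
    rw [bs_bs] at h4
    rw [← bs_unique (h0 i z hz.1.1) h4 h3]
    cases v <;> cases sg (g i) (g j) z <;> cases sg (g j) (g k) z <;> rfl

/-- **Gluing up to sign.** -/
theorem exists_glue_sign [SimplyConnectedSpace X] [LocallyPathConnectedSpace X]
    (U : X → Set X) (g : X → X → ℝ) (hU : ∀ x, IsOpen (U x))
    (hx : ∀ x, x ∈ U x) (h0 : ∀ x, ∀ z ∈ U x, ¬ g x =ᶠ[𝓝 z] 0)
    (hpm : ∀ x y, ∀ z ∈ U x ∩ U y, PM (g x) (g y) z) :
    ∃ G : X → ℝ, ∀ x, PM G (g x) x := by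
  set Z := signCore U g hU hx h0 hpm with hZ
  haveI : DiscreteTopology Bool := inferInstance
  have cov : IsCoveringMap (Bundle.TotalSpace.proj : Z.TotalSpace → X) :=
    FiberBundle.isCoveringMap
  obtain ⟨x₀⟩ : Nonempty X := inferInstance
  obtain ⟨s, ⟨-, hs⟩, -⟩ := cov.existsUnique_continuousMap_lifts (ContinuousMap.id X) x₀
    (⟨x₀, true⟩ : Z.TotalSpace) rfl
  have hp : ∀ x, (s x).proj = x := fun x => congrFun hs x
  let b : X → Bool := fun x => (s x).snd
  refine ⟨fun x => bs (b x) (g x) x, fun x => ?_⟩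
  have hc : ContinuousAt (fun z => (Z.localTriv x (s z)).2) x := by
    have h1 : s x ∈ (Z.localTriv x).source := by
      rw [Z.mem_localTriv_source, hp]
      exact hx x
    exact (((Z.localTriv x).continuousAt h1).comp s.continuous.continuousAt).snd
  have he : ∀ᶠ z in 𝓝 x, (Z.localTriv x (s z)).2 = (Z.localTriv x (s x)).2 := by
    have := hc.eventually ((isOpen_discrete {(Z.localTriv x (s x)).2}).mem_nhds rfl)
    exact this.mono fun z hz => hz
  have key : (fun z => bs (b z) (g z) z) =ᶠ[𝓝 x] bs (Z.localTriv x (s x)).2 (g x) := by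
    filter_upwards [he, (hU x).mem_nhds (hx x)] with z hz hzU
    rw [← hz, Z.localTriv_apply]
    have h1 := (bs_congr (b z) (sg_spec (hpm z x z ⟨hx z, hzU⟩))).eq_of_nhds
    rw [bs_bs] at h1
    rw [h1]
    simp only [hp]
    rfl
  rcases bs_pm (Z.localTriv x (s x)).2 (g x) x with h | h
  · exact Or.inl (key.trans h)
  · exact Or.inr (key.trans h)

end Vale.Agent.P218UZ
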