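import Vale.Agent.P218UZ.Inj
import Vale.Agent.P218UZ.Sign
import Vale.Agent.P218UZ.SDM

/-! A smooth embedded mean curvature flow is the zero set of a global signed distance function. -/

open Set Filter Topology Metric
open scoped Manifold ContDiff RealInnerProductSpace

namespace Vale.Agent.P218UZ

open Vale.Agent.P218UA (IsFlow)

theorem exists_glue_sign_on {V : Type*} [NormedAddCommGroup V] [NormedSpace ℝ V] {X : Set V}
    (hX : IsOpen X) (hc : Convex ℝ X) (hne : X.Nonempty) (U : X → Set V) (g : X → V → ℝ)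
    (hU : ∀ x, IsOpen (U x)) (hx : ∀ x, x.1 ∈ U x) (h0 : ∀ x, ∀ z ∈ U x, ¬g x =ᶠ[𝓝 z] 0)
    (hpm : ∀ x y, ∀ z ∈ U x ∩ U y, PM (g x) (g y) z) : ∃ G : V → ℝ, ∀ x : X, PM G (g x) x := by
  have := hc.contractibleSpace hne
  have := hX.locallyPathConnectedSpace
  have hm : ∀ x : X, map (↑) (𝓝 x) = 𝓝 (x : V) := hX.isOpenEmbedding_subtypeVal.map_nhds_eq
  have key : ∀ (x : X) (a b : V → ℝ), a =ᶠ[𝓝 (x : V)] b ↔ a ∘ (↑) =ᶠ[𝓝 x] b ∘ (↑) :=
    fun x a b => by rw [← hm]; rfl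
  obtain ⟨G, hG⟩ := exists_glue_sign (fun x : X => Subtype.val ⁻¹' U x) (fun x => g x ∘ Subtype.val)
    (fun x => (hU x).preimage continuous_subtype_val) hx
    (fun x z hz h => h0 x z hz ((key z _ 0).2 h))
    fun x y z hz => (hpm x y z hz).imp (key z _ _).1 (key z _ _).1
  have e : Function.extend Subtype.val G 0 ∘ Subtype.val = G :=
    Function.extend_comp Subtype.val_injective _ _
  exact ⟨Function.extend Subtype.val G 0, fun x =>
    (hG x).imp (fun h => (key x _ _).2 (e.symm ▸ h)) fun h => (key x _ _).2 (e.symm ▸ h)⟩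

lemma gx_eq_zero {a : ℝ × E3 → ℝ} {z : ℝ × E3} (h : a =ᶠ[𝓝 z] 0) : gx a z = 0 := by
  rw [(ev_gx_congr h).eq_of_nhds]
  exact gradient_fun_const _ _

lemma evEq_zero_of_mul {a b : ℝ × E3 → ℝ} {z : ℝ × E3} (ha : ContDiffAt ℝ ∞ a z)
    (hb : ∀ᶠ q in 𝓝 z, ContinuousAt b q) (h0 : gx a z ≠ 0) (h : ∀ᶠ q in 𝓝 z, a q * b q = 0) :
    b =ᶠ[𝓝 z] 0 := by
  filter_upwards [ev_gx_ne ha h0, hb, h.eventually_nhds] with q h1 h2 h3
  by_contra hq
  refine h1 (gx_eq_zero ?_)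
  filter_upwards [h2.eventually_ne hq, h3] with y hy hy'
  exact (mul_eq_zero.1 hy').resolve_right hy

lemma pm_of_abs {a b : ℝ × E3 → ℝ} {z : ℝ × E3} (ha : ∀ᶠ q in 𝓝 z, ContDiffAt ℝ ∞ a q)
    (hb : ∀ᶠ q in 𝓝 z, ContDiffAt ℝ ∞ b q) (h0 : gx a z ≠ 0) (h : ∀ᶠ q in 𝓝 z, |a q| = |b q|) :
    PM a b z := by
  have ha0 := ha.self_of_nhds
  have hb0 := hb.self_of_nhds
  have da := ha0.differentiableAt (by simp)
  have db := hb0.differentiableAt (by simp)
  have hsq : ∀ᶠ q in 𝓝 z, (a q + b q) * (a q - b q) = 0 := h.mono fun q hq => by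
    have := sq_eq_sq_iff_abs_eq_abs (a q) (b q) |>.2 hq
    linarith
  by_cases h1 : gx (fun q => a q + b q) z = 0
  · have h2 : gx (fun q => a q - b q) z ≠ 0 := fun h2 => h0 (ext_inner_right ℝ fun v => by
      have e1 := inner_gx (da.add db) v
      have e2 := inner_gx (da.sub db) v
      rw [fderiv_add da db] at e1
      rw [fderiv_sub da db] at e2
      change ⟪gx (fun q => a q + b q) z, v⟫ = _ at e1
      change ⟪gx (fun q => a q - b q) z, v⟫ = _ at e2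
      rw [h1] at e1
      rw [h2] at e2
      simp only [inner_zero_left, add_apply, sub_apply] at e1 e2 ⊢
      rw [inner_gx da]
      linarith)
    exact Or.inr ((evEq_zero_of_mul (ha0.sub hb0)
      ((ha.and hb).mono fun q hq => (hq.1.add hq.2).continuousAt) h2
      (hsq.mono fun q hq => by rw [mul_comm]; exact hq)).mono fun q hq =>
        eq_neg_of_add_eq_zero_left hq)
  · exact Or.inl ((evEq_zero_of_mul (ha0.add hb0)
      ((ha.and hb).mono fun q hq => (hq.1.sub hq.2).continuousAt) h1 hsq).mono fun q hq =>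
        sub_eq_zero.1 hq)

lemma pm_of_ne {V : Type*} [TopologicalSpace V] {a d : V → ℝ} {z : V} (ha : ContinuousAt a z)
    (h0 : d z ≠ 0) (h : ∀ᶠ q in 𝓝 z, |a q| = d q) : PM a d z := by
  have h1 : a z ≠ 0 := fun e => h0 (by rw [← h.self_of_nhds, e, abs_zero])
  rcases lt_or_gt_of_ne h1 with h2 | h2
  · right
    filter_upwards [h, ha.eventually (gt_mem_nhds h2)] with q hq hq'
    rw [Pi.neg_apply, ← hq, abs_of_neg hq', neg_neg]
  · left
    filter_upwards [h, ha.eventually (lt_mem_nhds h2)] with q hq hq'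
    rw [← hq, abs_of_pos hq']

lemma PM.symm {V : Type*} [TopologicalSpace V] {a b : V → ℝ} {z : V} (h : PM a b z) : PM b a z :=
  h.imp EventuallyEq.symm neg_evEq

variable {M : Type*} [TopologicalSpace M] [ChartedSpace E2 M] {F : ℝ → M → E3} {T : ℝ}

/-- the distance to the surface -/
noncomputable def dF (F : ℝ → M → E3) (q : ℝ × E3) : ℝ := infDist q.2 (range (F q.1))

/-- the equation `∂_t s = Δ s` at a point -/
def HeatAt (s : ℝ × E3 → ℝ) (q : ℝ × E3) : Prop :=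
  fderiv ℝ s q (1, 0) =
    LinearMap.trace ℝ E3 (fderiv ℝ (gradient fun x => s (q.1, x)) q.2).toLinearMap

lemma IsSmoothMCF.contAt (hF : IsSmoothMCF F T) {t : ℝ} (ht : t ∈ Ioo 0 T) (p : M) :
    ContinuousAt (fun z : ℝ × M => F z.1 z.2) (t, p) :=
  hF.cont.continuousAt (prod_mem_nhds (Ico_mem_nhds ht.1 ht.2) univ_mem)

variable [CompactSpace M]

lemma IsSmoothMCF.ev_not_mem (hF : IsSmoothMCF F T) {q : ℝ × E3} (ht : q.1 ∈ Ioo 0 T)
    (hq : q.2 ∉ range (F q.1)) : ∀ᶠ z in 𝓝 q, z.2 ∉ range (F z.1) := by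
  have := isCompact_univ.eventually_forall_of_forall_eventually (x₀ := q)
    (P := fun z p => F z.1 p ≠ z.2) fun p _ => by
      have c1 : ContinuousAt (fun y : (ℝ × E3) × M => F y.1.1 y.2 - y.1.2) (q, p) :=
        ((hF.contAt ht p).comp_of_eq (f := fun y : (ℝ × E3) × M => (y.1.1, y.2)) (by fun_prop)
          rfl).sub (by fun_prop)
      exact (c1.eventually_ne (sub_ne_zero.2 fun h => hq ⟨p, h⟩)).mono fun y hy => sub_ne_zero.1 hy
  exact this.mono fun z hz ⟨p, hp⟩ => hz p trivial hp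

lemma IsSmoothMCF.dF_eq_zero [Nonempty M] (hF : IsSmoothMCF F T) {q : ℝ × E3}
    (ht : q.1 ∈ Ioo 0 T) : dF F q = 0 ↔ q.2 ∈ range (F q.1) :=
  ((isCompact_range (hF.cont_sec (Ioo_subset_Ico_self ht))).isClosed.mem_iff_infDist_zero
    (range_nonempty _)).symm

lemma IsSmoothMCF.exists_sd [IsManifold (𝓡 2) ∞ M] (hF : IsSmoothMCF F T) {t : ℝ}
    (ht : t ∈ Ioo 0 T) (hi : Function.Injective (F t)) (p : M) :
    ∃ s : ℝ × E3 → ℝ, (∀ᶠ q in 𝓝 (t, F t p), ContDiffAt ℝ ∞ s q ∧ ‖gx s q‖ = 1 ∧ |s q| = dF F q) ∧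
      HeatAt s (t, F t p) := by
  have ht' := Ioo_subset_Ico_self ht
  obtain ⟨s, h1, h2, h3⟩ := exists_loc (hF.ev_cdAt p ht) (hF.dS_eq p ht ▸ hF.inj_centre p ht')
    fun n _ => by rw [hF.fderiv_time p ht]
  rw [Gc_uc] at h1 h2 h3
  refine ⟨s, ?_, h3⟩
  have hI : ∀ᶠ q : ℝ × E3 in 𝓝 (t, F t p), q.1 ∈ Ioo 0 T :=
    continuousAt_fst.eventually (isOpen_Ioo.mem_nhds ht)
  have hex : ∀ q : ℝ × E3, ∃ p', q.1 ∈ Ioo 0 T → dF F q = dist q.2 (F q.1 p') := fun q => by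
    by_cases hq : q.1 ∈ Ioo 0 T
    · obtain ⟨_, ⟨p', rfl⟩, h⟩ := (isCompact_range (hF.cont_sec (Ioo_subset_Ico_self hq))
        ).exists_infDist_eq_dist ⟨_, mem_range_self p⟩ q.2
      exact ⟨p', fun _ => h⟩
    · exact ⟨p, fun h => (hq h).elim⟩
  choose y hy using hex
  have hy0 : Tendsto y (𝓝 (t, F t p)) (𝓝 p) := by
    rw [_root_.tendsto_nhds]
    intro W hW hpW
    have := hW.isClosed_compl.isCompact.eventually_forall_of_forall_eventually (x₀ := (t, F t p))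
      (P := fun z p' => dist z.2 (F z.1 p) < dist z.2 (F z.1 p')) fun p' hp' => by
        have c1 : ∀ (k : (ℝ × E3) × M → M) (r : M), Continuous k → k ((t, F t p), p') = r →
            ContinuousAt (fun y : (ℝ × E3) × M => dist y.1.2 (F y.1.1 (k y))) ((t, F t p), p') :=
          fun k r hk hr => Tendsto.dist (continuous_fst.snd.tendsto _) ((hF.contAt ht r).comp_of_eq
            (f := fun y : (ℝ × E3) × M => (y.1.1, k y)) (by fun_prop) (by rw [← hr]))
        refine (c1 _ p continuous_const rfl).eventually_lt (c1 _ p' continuous_snd rfl) ?_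
        have : F t p ≠ F t p' := fun h => hp' (hi h ▸ hpW)
        simpa using this
    filter_upwards [this, hI] with q hq hqI
    by_contra h
    exact (hq _ h).not_ge (hy q hqI ▸ infDist_le_dist_of_mem (mem_range_self p))
  have hu : Tendsto (fun q : ℝ × E3 => (q.1, chartAt E2 p (y q))) (𝓝 (t, F t p)) (𝓝 (t, uc p)) :=
    (continuous_fst.tendsto _).prodMk_nhds ((tendsto_chart p).comp hy0)
  filter_upwards [h1, (hu.prodMk_nhds (continuous_snd.tendsto _)).eventually h2, hI,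
    hy0.eventually (chart_source_mem_nhds E2 p), hu.eventually (hF.ev_cdAt p ht)]
    with q hq hq2 hqI hs hcd
  refine ⟨hq.1, hq.2, ?_⟩
  have e : ‖q.2 - Gc F p (q.1, chartAt E2 p (y q))‖ = dF F q := by
    rw [Gc_chart hs, hy q hqI, dist_eq_norm]
  rw [← e]
  refine hq2 fun a => ?_
  have hmin : IsLocalMin (fun u => ‖q.2 - Gc F p (q.1, u)‖ ^ 2) (chartAt E2 p (y q)) :=
    Eventually.of_forall fun u => pow_le_pow_left₀ (norm_nonneg _)
      (e ▸ dist_eq_norm q.2 (Gc F p (q.1, u)) ▸ infDist_le_dist_of_mem (mem_range_self _)) 2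
  have h4 := hmin.hasFDerivAt_eq_zero
    ((hasFDerivAt_sec (hcd.differentiableAt (by simp))).const_sub q.2).norm_sq
  have h5 := congrArg (fun L : E2 →L[ℝ] ℝ => L a) h4
  simp at h5
  rw [inner_sub_left]
  linarith

lemma HeatAt.of_pm {w s : ℝ × E3 → ℝ} {q : ℝ × E3} (h : HeatAt s q) (hw : PM w s q) :
    HeatAt w q := by
  have hx := (Continuous.prodMk_right q.1).tendsto q.2
  unfold HeatAt at h ⊢
  rcases hw with hw | hw
  · rw [hw.fderiv_eq, (EventuallyEq.gradient (f₁ := fun x => w (q.1, x))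
      (f := fun x => s (q.1, x)) (hx.eventually hw)).fderiv_eq, h]
  · have e : (gradient fun x => (-s) (q.1, x)) = -gradient fun x => s (q.1, x) := by
      ext1 x
      simp [gradient]
    rw [hw.fderiv_eq, (EventuallyEq.gradient (f₁ := fun x => w (q.1, x))
      (f := fun x => (-s) (q.1, x)) (hx.eventually hw)).fderiv_eq, e, fderiv_neg, fderiv_neg]
    simp [h]

/-- **The flow as the zero set of a signed distance function.** -/
theorem IsSmoothMCF.exists_isFlow [IsManifold (𝓡 2) ∞ M] [T2Space M] [Nonempty M]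
    (hF : IsSmoothMCF F T) (hT : 0 < T) (h0 : Function.Injective (F 0)) :
    ∃ w, IsFlow w (Ioo 0 T) ∧ ∀ t ∈ Ioo 0 T, {x | w t x = 0} = range (F t) := by
  have hX : IsOpen (Ioo 0 T ×ˢ (univ : Set E3)) := isOpen_Ioo.prod isOpen_univ
  have hloc : ∀ x : (Ioo 0 T ×ˢ univ : Set (ℝ × E3)), ∃ (U : Set (ℝ × E3)) (g : ℝ × E3 → ℝ),
      IsOpen U ∧ x.1 ∈ U ∧
      (((∀ q ∈ U, ContDiffAt ℝ ∞ g q ∧ ‖gx g q‖ = 1 ∧ |g q| = dF F q) ∧ HeatAt g x ∧ dF F x = 0) ∨
        (g = dF F ∧ ∀ q ∈ U, dF F q ≠ 0)) := by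
    rintro ⟨⟨t, x⟩, ht, -⟩
    by_cases hx : x ∈ range (F t)
    · obtain ⟨p, rfl⟩ := hx
      obtain ⟨s, h1, h2⟩ := hF.exists_sd ht (hF.injective h0 (Ioo_subset_Ico_self ht)) p
      obtain ⟨U, hU, hUo, hxU⟩ := _root_.eventually_nhds_iff.1 h1
      exact ⟨U, s, hUo, hxU, Or.inl ⟨hU, h2, (hF.dF_eq_zero ht).2 ⟨p, rfl⟩⟩⟩
    · obtain ⟨U, hU, hUo, hxU⟩ := _root_.eventually_nhds_iff.1 ((hF.ev_not_mem (q := (t, x)) ht hx).and
        (continuousAt_fst.eventually (isOpen_Ioo.mem_nhds ht)))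
      exact ⟨U, _, hUo, hxU, Or.inr ⟨rfl, fun q hq h =>
        (hU q hq).1 ((hF.dF_eq_zero (hU q hq).2).1 h)⟩⟩
  choose U g hU hx hg using hloc
  obtain ⟨G, hG⟩ := exists_glue_sign_on hX ((convex_Ioo 0 T).prod convex_univ)
    ⟨(T / 2, 0), ⟨by linarith, by linarith⟩, trivial⟩ U g hU hx
    (fun x z hz h => by
      rcases hg x with h1 | h1
      · simpa [gx_eq_zero h] using (h1.1 z hz).2.1
      · exact h1.2 z hz (h1.1 ▸ h.eq_of_nhds))
    fun x y z hz => by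
      have ex := (hU x).mem_nhds hz.1
      have ey := (hU y).mem_nhds hz.2
      rcases hg x with h1 | h1 <;> rcases hg y with h2 | h2
      · refine pm_of_abs (Eventually.mono ex fun q hq => (h1.1 q hq).1)
          (Eventually.mono ey fun q hq => (h2.1 q hq).1)
          (fun h => by simpa [h] using (h1.1 z hz.1).2.1) ?_
        filter_upwards [ex, ey] with q hq hq'
        rw [(h1.1 q hq).2.2, (h2.1 q hq').2.2]
      · rw [h2.1]
        exact pm_of_ne (h1.1 z hz.1).1.continuousAt (h2.2 z hz.2)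
          (Eventually.mono ex fun q hq => (h1.1 q hq).2.2)
      · rw [h1.1]
        exact (pm_of_ne (h2.1 z hz.2).1.continuousAt (h1.2 z hz.1)
          (Eventually.mono ey fun q hq => (h2.1 q hq).2.2)).symm
      · rw [h1.1, h2.1]
        exact Or.inl EventuallyEq.rfl
  have habs : ∀ x : (Ioo 0 T ×ˢ univ : Set (ℝ × E3)), |G x| = dF F x := fun x => by
    have e : |G x| = |g x x| := by
      rcases hG x with h | h <;> simp [h.eq_of_nhds]
    rcases hg x with h1 | h1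
    · rw [e, (h1.1 _ (hx x)).2.2]
    · rw [e, h1.1]
      exact abs_of_nonneg infDist_nonneg
  have hz : ∀ x : (Ioo 0 T ×ˢ univ : Set (ℝ × E3)), G x = 0 →
      (∀ᶠ q in 𝓝 x.1, ContDiffAt ℝ ∞ G q ∧ ‖gx G q‖ = 1) ∧ HeatAt G x := fun x h => by
    rcases hg x with h1 | h1
    · refine ⟨?_, h1.2.1.of_pm (hG x)⟩
      rcases hG x with h2 | h2
      · filter_upwards [(hU x).mem_nhds (hx x), h2.eventually_nhds, ev_gx_congr h2] with q a b c
        exact ⟨(h1.1 q a).1.congr_of_eventuallyEq b, c ▸ (h1.1 q a).2.1⟩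
      · filter_upwards [(hU x).mem_nhds (hx x), h2.eventually_nhds, ev_gx_congr h2] with q a b c
        refine ⟨(h1.1 q a).1.neg.congr_of_eventuallyEq b, ?_⟩
        rw [c, ← (h1.1 q a).2.1]
        simp [gx, gradient]
    · exact (h1.2 _ (hx x) (by rw [← habs, h, abs_zero])).elim
  obtain ⟨w, hw, hws, hwg⟩ := exists_glue hX (fun p hp h => (hz ⟨p, hp⟩ h).1.mono fun q hq => hq.1)
    fun p hp h => by
      have hd : dF F p ≠ 0 := fun e => h (abs_eq_zero.1 ((habs ⟨p, hp⟩).trans e))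
      rcases hg ⟨p, hp⟩ with h1 | h1
      · exact (hd h1.2.2).elim
      have hpos : ∀ᶠ q in 𝓝 p, 0 < dF F q :=
        Eventually.mono ((hU _).mem_nhds (hx ⟨p, hp⟩)) fun q hq =>
          infDist_nonneg.lt_of_ne' (h1.2 q hq)
      rcases h1.1 ▸ hG ⟨p, hp⟩ with h2 | h2
      · filter_upwards [hpos, h2] with q hq hq'
        rw [hq', h2.eq_of_nhds, sign_pos hq, sign_pos hpos.self_of_nhds]
      · filter_upwards [hpos, h2] with q hq hq'
        rw [hq', h2.eq_of_nhds, Pi.neg_apply, Pi.neg_apply, sign_neg (neg_neg_of_pos hq),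
          sign_neg (neg_neg_of_pos hpos.self_of_nhds)]
  have hw0 : ∀ t ∈ Ioo 0 T, ∀ x, w (t, x) = 0 ↔ G (t, x) = 0 := fun t ht x => by
    rw [← sign_eq_zero_iff, hws _ ⟨ht, trivial⟩, sign_eq_zero_iff]
  refine ⟨fun t x => w (t, x), ⟨isOpen_Ioo, ordConnected_Ioo, hw, fun t ht x hx => ?_,
    fun t ht x hx => ?_⟩, fun t ht => Set.ext fun x => ?_⟩
  · have h1 := (hw0 t ht x).1 hx
    filter_upwards [(hz ⟨_, ht, trivial⟩ h1).1, ev_gx_congr (hwg _ ⟨ht, trivial⟩ h1)] with q hq hq'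
    exact (congrArg norm hq').trans hq.2
  · have h1 := (hw0 t ht x).1 hx
    have h2 := (hz ⟨_, ht, trivial⟩ h1).2.of_pm (Or.inl (hwg _ ⟨ht, trivial⟩ h1))
    have h3 := HasFDerivAt.comp_hasDerivAt (f := fun s : ℝ => (s, x)) t
      ((hw.contDiffAt (hX.mem_nhds ⟨ht, trivial⟩)).differentiableAt (by simp)).hasFDerivAt
      ((hasDerivAt_id t).prodMk (hasDerivAt_const t x))
    exact h3.deriv.trans h2
  · rw [mem_ofPred_eq, hw0 t ht, ← abs_eq_zero, habs ⟨_, ht, trivial⟩]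
    exact hF.dF_eq_zero ht

lemma IsSmoothMCF.isCompact_track (hF : IsSmoothMCF F T) {w : ℝ → E3 → ℝ}
    (hw : ∀ t ∈ Ioo 0 T, {x | w t x = 0} = range (F t)) {a b : ℝ} (ha : 0 < a) (hb : b < T) :
    IsCompact {p : ℝ × E3 | p.1 ∈ Icc a b ∧ w p.1 p.2 = 0} := by
  have hI : Icc a b ⊆ Ioo 0 T := Icc_subset_Ioo ha hb
  have h1 := ((isCompact_Icc (a := a) (b := b)).prod (isCompact_univ (X := M))).image_of_continuousOn
    (continuousOn_fst.prodMk (hF.cont.mono (prod_mono (hI.trans Ioo_subset_Ico_self) Subset.rfl)))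
  convert h1 using 1
  ext ⟨t, x⟩
  constructor
  · rintro ⟨ht, hx⟩
    obtain ⟨p, hp⟩ : x ∈ range (F t) := hw t (hI ht) ▸ hx
    exact ⟨(t, p), ⟨ht, trivial⟩, Prod.ext rfl hp⟩
  · rintro ⟨⟨s, p⟩, hs, e⟩
    obtain ⟨rfl, rfl⟩ := Prod.mk.inj e
    exact ⟨hs.1, (hw s (hI hs.1)).symm.subset ⟨p, rfl⟩⟩

omit [CompactSpace M] in
lemma IsSmoothMCF.isPreconnected_slice [ConnectedSpace M] (hF : IsSmoothMCF F T) {w : ℝ → E3 → ℝ}
    (hw : ∀ t ∈ Ioo 0 T, {x | w t x = 0} = range (F t)) {t : ℝ} (ht : t ∈ Ioo 0 T) :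
    IsPreconnected {x | w t x = 0} :=
  hw t ht ▸ isPreconnected_range (hF.cont_sec (Ioo_subset_Ico_self ht))

end Vale.Agent.P218UZ
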