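import Vale.Agent.P218UZ.Chart

/-! Embeddedness is preserved by the smooth mean curvature flow. -/

open Set Filter Topology Metric
open scoped Manifold ContDiff RealInnerProductSpace

namespace Vale.Agent.P218UZ

variable {M : Type*} [TopologicalSpace M] [ChartedSpace E2 M] {F : ℝ → M → E3} {T : ℝ}

lemma exists_lt_left {h : ℝ → ℝ} {c t : ℝ} (hd : HasDerivAt h c t) (hc : 0 < c) :
    ∀ᶠ s in 𝓝[<] t, h s < h t := by
  filter_upwards [(hasDerivAt_iff_tendsto_slope_left_right.1 hd).1.eventually (lt_mem_nhds hc),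
    self_mem_nhdsWithin] with s hs hs'
  rw [slope_def_field] at hs
  have h1 : s - t < 0 := sub_neg.2 hs'
  rcases div_pos_iff.1 hs with h2 | h2 <;> linarith [h2.1, h2.2]

lemma IsSmoothMCF.dist_lt [IsManifold (𝓡 2) ∞ M] (hF : IsSmoothMCF F T) {t ε : ℝ}
    (ht : t ∈ Ioo 0 T) (hε : 0 < ε) {p q : M}
    (hm : ∀ᶠ y : M × M in 𝓝 (p, q), ‖F t p - F t q‖ ^ 2 ≤ ‖F t y.1 - F t y.2‖ ^ 2) :
    ∀ᶠ s in 𝓝[<] t, ‖F s p - F s q‖ ^ 2 + ε * s < ‖F t p - F t q‖ ^ 2 + ε * t := by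
  have ht' : t ∈ Ico 0 T := Ioo_subset_Ico_self ht
  have hloc : IsLocalMin (fun y : E2 × E2 => ‖Gc F p (t, y.1) - Gc F q (t, y.2)‖ ^ 2)
      (uc p, uc q) := by
    filter_upwards [((tendsto_chart_symm p).prodMap_nhds (tendsto_chart_symm q)).eventually hm]
      with y hy
    simp only [Gc_uc]
    exact hy
  have h2 := two_point ((hF.cdAt_sec p ht' (uc_mem p)).of_le (by norm_cast))
    ((hF.cdAt_sec q ht' (uc_mem q)).of_le (by norm_cast))
    (hF.inj_centre p ht') (hF.inj_centre q ht') hloc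
  simp only [Gc_uc] at h2
  have hd : HasDerivAt (fun s => ‖F s p - F s q‖ ^ 2 + ε * s)
      (2 * ⟪F t p - F t q, meanCurv (F t) p - meanCurv (F t) q⟫ + ε * 1) t :=
    ((hF.flow t ht p).sub (hF.flow t ht q)).norm_sq.add ((hasDerivAt_id t).const_mul ε)
  refine exists_lt_left hd ?_
  have : 0 ≤ ⟪F t p - F t q, meanCurv (F t) p - meanCurv (F t) q⟫ := h2
  linarith

/-- **Embeddedness is preserved.** -/
theorem IsSmoothMCF.injective [IsManifold (𝓡 2) ∞ M] [CompactSpace M] [T2Space M]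
    (hF : IsSmoothMCF F T) (h0 : Function.Injective (F 0)) {b : ℝ} (hb : b ∈ Ico 0 T) :
    Function.Injective (F b) := by
  have hI : Icc 0 b ⊆ Ico 0 T := Icc_subset_Ico_right hb.2
  obtain ⟨U, D, -, hD, hU, hdD, hUD⟩ := generalized_tube_lemma (isCompact_Icc (a := 0) (b := b))
    (isClosed_diagonal (X := M)).isCompact
    (isOpen_interior (s := {z : ℝ × M × M | z.1 ∈ Ico 0 T → F z.1 z.2.1 = F z.1 z.2.2 →
      z.2.1 = z.2.2})) (by
      rintro ⟨t, p, q⟩ ⟨ht, hpq⟩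
      obtain rfl : p = q := hpq
      exact mem_interior_iff_mem_nhds.2 (hF.loc_inj p (hI ht)))
  have hW : ∀ t ∈ Icc 0 b, ∀ y ∈ D, F t y.1 = F t y.2 → y.1 = y.2 := fun t ht y hy =>
    interior_subset (hUD (show (t, y) ∈ U ×ˢ D from ⟨hU ht, hy⟩)) (hI ht)
  obtain ⟨D', hD', hdD', hcl⟩ := normal_exists_closure_subset isClosed_diagonal hD hdD
  have hK : IsCompact D'ᶜ := hD'.isClosed_compl.isCompact
  intro p q hpq
  by_contra hne
  have hpqK : (p, q) ∈ D'ᶜ := fun h =>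
    hne (hW b ⟨hb.1, le_rfl⟩ _ (hcl (subset_closure h)) hpq)
  let φ : ℝ × M × M → ℝ := fun z => ‖F z.1 z.2.1 - F z.1 z.2.2‖ ^ 2
  have hφ : ContinuousOn φ (Icc 0 b ×ˢ univ) :=
    ((hF.cont.comp (f := fun z : ℝ × M × M => (z.1, z.2.1)) (by fun_prop)
      fun z hz => ⟨hI hz.1, trivial⟩).sub
      (hF.cont.comp (f := fun z : ℝ × M × M => (z.1, z.2.2)) (by fun_prop)
      fun z hz => ⟨hI hz.1, trivial⟩)).norm.pow 2
  have hB : IsCompact (({0} : Set ℝ) ×ˢ D'ᶜ ∪ Icc 0 b ×ˢ (D'ᶜ ∩ closure D')) :=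
    (isCompact_singleton.prod hK).union (isCompact_Icc.prod (hK.inter_right isClosed_closure))
  obtain ⟨c, hc, hcB⟩ := hB.exists_forall_le' (f := φ) (a := 0) (hφ.mono (by
    rintro z (hz | hz)
    · exact ⟨by rw [show z.1 = 0 from hz.1]; exact ⟨le_rfl, hb.1⟩, trivial⟩
    · exact ⟨hz.1, trivial⟩)) (by
    rintro z hz
    refine pow_pos (norm_pos_iff.2 (sub_ne_zero.2 fun he => ?_)) 2
    rcases hz with hz | hz
    · rw [show z.1 = 0 from hz.1] at he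
      exact hz.2 (hdD' (h0 he))
    · exact hz.2.1 (hdD' (hW _ hz.1 _ (hcl hz.2.2) he)))
  have hb1 : 0 < b + 1 := by linarith [hb.1]
  set ε := c / (b + 1) with hε
  have hε0 : 0 < ε := div_pos hc hb1
  have hεb : ε * b < c := by
    have : ε * (b + 1) = c := div_mul_cancel₀ _ hb1.ne'
    linarith
  obtain ⟨⟨t, p', q'⟩, hz, hmin⟩ := (isCompact_Icc.prod hK).exists_isMinOn
    (f := fun z => φ z + ε * z.1) ⟨(b, p, q), ⟨hb.1, le_rfl⟩, hpqK⟩
    ((hφ.mono (prod_mono Subset.rfl (subset_univ _))).add (by fun_prop))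
  have h1 : φ (t, p', q') < c := by
    have h2 : φ (t, p', q') + ε * t ≤ φ (b, p, q) + ε * b :=
      hmin (show (b, p, q) ∈ Icc 0 b ×ˢ D'ᶜ from ⟨⟨hb.1, le_rfl⟩, hpqK⟩)
    have h3 : φ (b, p, q) = 0 := by simp [φ, hpq]
    nlinarith [hz.1.1]
  have ht0 : 0 < t := hz.1.1.lt_of_ne' fun h => (hcB _ (Or.inl ⟨h, hz.2⟩)).not_gt h1
  have hn : (p', q') ∉ closure D' := fun h => (hcB _ (Or.inr ⟨hz.1, hz.2, h⟩)).not_gt h1
  have ht : t ∈ Ioo 0 T := ⟨ht0, (hI hz.1).2⟩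
  have hKn : D'ᶜ ∈ 𝓝 (p', q') :=
    mem_of_superset (isClosed_closure.isOpen_compl.mem_nhds hn) (compl_subset_compl.2 subset_closure)
  have hmin' : ∀ s ∈ Icc 0 b, ∀ y ∈ D'ᶜ,
      ‖F t p' - F t q'‖ ^ 2 + ε * t ≤ ‖F s y.1 - F s y.2‖ ^ 2 + ε * s := fun s hs y hy => by
    simpa only [φ] using isMinOn_iff.1 hmin (s, y) ⟨hs, hy⟩
  have hm : ∀ᶠ y : M × M in 𝓝 (p', q'), ‖F t p' - F t q'‖ ^ 2 ≤ ‖F t y.1 - F t y.2‖ ^ 2 := by
    filter_upwards [hKn] with y hy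
    linarith [hmin' t hz.1 y hy]
  obtain ⟨s, hs, hs'⟩ := ((hF.dist_lt ht hε0 hm).and (Ioo_mem_nhdsLT ht0)).exists
  exact hs.not_ge (hmin' s ⟨hs'.1.le, hs'.2.le.trans hz.1.2⟩ (p', q') hz.2)

end Vale.Agent.P218UZ
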