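import Vale.Agent.P218UZ.Loc
import Mathlib.Analysis.Calculus.MeanValue
import Mathlib.Analysis.Calculus.Deriv.MeanValue
import Mathlib.Data.Sign.Basic

/-! The local signed distance function of a moving level set. -/

open Set Filter Topology Module Metric
open scoped RealInnerProductSpace ContDiff

namespace Vale.Agent.P218UZ

/-- the spatial gradient -/
noncomputable def gx (f : ℝ × E3 → ℝ) (q : ℝ × E3) : E3 := gradient (fun x => f (q.1, x)) q.2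

variable {f : ℝ × E3 → ℝ} {q : ℝ × E3}

lemma hasFDerivAt_slice (h : DifferentiableAt ℝ f q) :
    HasFDerivAt (fun x => f (q.1, x)) ((fderiv ℝ f q).comp (ContinuousLinearMap.inr ℝ ℝ E3)) q.2 :=
  HasFDerivAt.comp (f := fun x => (q.1, x)) q.2 h.hasFDerivAt (hasFDerivAt_prodMk_right q.1 q.2)

lemma inner_gx (h : DifferentiableAt ℝ f q) (v : E3) : ⟪gx f q, v⟫ = fderiv ℝ f q (0, v) := by
  rw [gx, inner_gradient_left, (hasFDerivAt_slice h).fderiv]
  rfl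

lemma cdAt_gx (h : ContDiffAt ℝ ∞ f q) : ContDiffAt ℝ ∞ (gx f) q := by
  have h1 : ContDiffAt ℝ ∞ (fun q => (InnerProductSpace.toDual ℝ E3).symm
      ((fderiv ℝ f q).comp (ContinuousLinearMap.inr ℝ ℝ E3))) q :=
    (InnerProductSpace.toDual ℝ E3).symm.contDiff.contDiffAt.comp q
      ((h.fderiv_right (m := ∞) (by simp)).clm_comp contDiffAt_const)
  refine h1.congr_of_eventuallyEq ?_
  filter_upwards [(h.of_le (show (1 : WithTop ℕ∞) ≤ ∞ by simp)).eventually (by simp)] with y hy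
  rw [gx, gradient, (hasFDerivAt_slice (hy.differentiableAt one_ne_zero)).fderiv]

/-- the unit normal of the level sets -/
noncomputable def nx (f : ℝ × E3 → ℝ) (q : ℝ × E3) : E3 := ‖gx f q‖⁻¹ • gx f q

lemma norm_nx (h : gx f q ≠ 0) : ‖nx f q‖ = 1 := by
  rw [nx, norm_smul, norm_inv, norm_norm, inv_mul_cancel₀ (norm_ne_zero_iff.2 h)]

lemma cdAt_nx (h : ContDiffAt ℝ ∞ f q) (h0 : gx f q ≠ 0) : ContDiffAt ℝ ∞ (nx f) q :=
  (((cdAt_gx h).norm ℝ h0).inv (norm_ne_zero_iff.2 h0)).smul (cdAt_gx h)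

lemma ev_gx_ne (h : ContDiffAt ℝ ∞ f q) (h0 : gx f q ≠ 0) : ∀ᶠ y in 𝓝 q, gx f y ≠ 0 :=
  (cdAt_gx h).continuousAt.eventually_ne h0

lemma inner_fderiv_nx (h : ContDiffAt ℝ ∞ f q) (h0 : gx f q ≠ 0) (ζ : ℝ × E3) :
    ⟪nx f q, fderiv ℝ (nx f) q ζ⟫ = 0 := by
  have e1 := ((cdAt_nx h h0).differentiableAt (by simp)).hasFDerivAt.norm_sq.unique
    ((hasFDerivAt_const (1 : ℝ) q).congr_of_eventuallyEq
      ((ev_gx_ne h h0).mono fun y hy => by simp [norm_nx hy]))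
  simpa using congrArg (fun L : ℝ × E3 →L[ℝ] ℝ => L ζ) e1

lemma inner_gx_nx (h0 : gx f q ≠ 0) : ⟪gx f q, nx f q⟫ = ‖gx f q‖ := by
  have := norm_ne_zero_iff.2 h0
  rw [nx, real_inner_smul_right, real_inner_self_eq_norm_sq]
  field_simp

/-- normal coordinates together with the level -/
noncomputable def lc (f : ℝ × E3 → ℝ) (y : (ℝ × E3) × ℝ) : (ℝ × E3) × ℝ :=
  ((y.1.1, y.1.2 + y.2 • nx f y.1), f y.1)

lemma cdAt_lc {y : (ℝ × E3) × ℝ} (h : ContDiffAt ℝ ∞ f y.1) (h0 : gx f y.1 ≠ 0) :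
    ContDiffAt ℝ ∞ (lc f) y :=
  (contDiffAt_fst.fst.prodMk (contDiffAt_fst.snd.add
    (contDiffAt_snd.smul ((cdAt_nx h h0).comp y contDiffAt_fst)))).prodMk (h.comp y contDiffAt_fst)

lemma fderiv_lc {y : (ℝ × E3) × ℝ} (h : ContDiffAt ℝ ∞ f y.1) (h0 : gx f y.1 ≠ 0)
    (η : (ℝ × E3) × ℝ) : fderiv ℝ (lc f) y η
      = ((η.1.1, η.1.2 + (y.2 • fderiv ℝ (nx f) y.1 η.1 + η.2 • nx f y.1)), fderiv ℝ f y.1 η.1) := by
  have h1 := (h.differentiableAt (by simp)).hasFDerivAt.comp y hasFDerivAt_fst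
  have h2 := ((cdAt_nx h h0).differentiableAt (by simp)).hasFDerivAt.comp y hasFDerivAt_fst
  have h3 := ((hasFDerivAt_fst (𝕜 := ℝ) (p := y)).fst.prodMk
    ((hasFDerivAt_fst (𝕜 := ℝ) (p := y)).snd.add (hasFDerivAt_snd.smul h2))).prodMk h1
  rw [show fderiv ℝ (lc f) y = _ from h3.fderiv]
  simp

lemma ev_sign {p : ℝ × E3} (hf : ∀ᶠ q in 𝓝 p, ContDiffAt ℝ ∞ f q) (h0 : gx f p ≠ 0) :
    ∀ᶠ y : (ℝ × E3) × ℝ in 𝓝 (p, 0), f y.1 = 0 →
      SignType.sign (f (lc f y).1) = SignType.sign y.2 := by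
  have hp := hf.self_of_nhds
  have hn := (cdAt_nx hp h0).continuousAt
  have c1 : ContinuousAt (fun y => (lc f y).1) (p, 0) := (cdAt_lc (y := (p, 0)) hp h0).continuousAt.fst
  have e0 : (lc f (p, 0)).1 = p := by simp [lc]
  have c2 : ContinuousAt (fun y : (ℝ × E3) × ℝ => ⟪gx f (lc f y).1, nx f y.1⟫) (p, 0) :=
    ((cdAt_gx hp).continuousAt.comp_of_eq c1 e0).inner (hn.comp_of_eq continuousAt_fst rfl)
  have h1 : ∀ᶠ y : (ℝ × E3) × ℝ in 𝓝 (p, 0), 0 < ⟪gx f (lc f y).1, nx f y.1⟫ :=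
    c2.eventually (lt_mem_nhds (by simp only [e0, inner_gx_nx h0]; exact norm_pos_iff.2 h0))
  have h2 : ∀ᶠ y : (ℝ × E3) × ℝ in 𝓝 (p, 0), ContDiffAt ℝ ∞ f (lc f y).1 :=
    (e0 ▸ c1.tendsto).eventually hf
  obtain ⟨r, hr, hb⟩ := Metric.eventually_nhds_iff_ball.1 (h1.and h2)
  filter_upwards [ball_mem_nhds _ hr] with y hy hy0
  rw [← ball_prod_same] at hy
  have hm : ∀ s ∈ ball (0 : ℝ) r, (y.1, s) ∈ ball ((p, 0) : (ℝ × E3) × ℝ) r := fun s hs => by
    rw [← ball_prod_same]; exact ⟨hy.1, hs⟩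
  have hd : ∀ s ∈ ball (0 : ℝ) r, HasDerivAt (fun s => f (lc f (y.1, s)).1)
      ⟪gx f (lc f (y.1, s)).1, nx f y.1⟫ s := fun s hs => by
    have d := (hb _ (hm s hs)).2.differentiableAt (by simp)
    have d1 : HasDerivAt (fun s : ℝ => y.1.2 + s • nx f y.1) (nx f y.1) s := by
      simpa using ((hasDerivAt_id s).smul_const (nx f y.1)).const_add y.1.2
    rw [inner_gx d]
    exact HasFDerivAt.comp_hasDerivAt (f := fun s : ℝ => y.1.2 + s • nx f y.1) s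
      (hasFDerivAt_slice d) d1
  have hmono := strictMonoOn_of_deriv_pos (convex_ball (0 : ℝ) r)
    (fun s hs => (hd s hs).continuousAt.continuousWithinAt)
    fun s hs => by
      rw [(hd s (interior_subset hs)).deriv]
      exact (hb _ (hm s (interior_subset hs))).1
  have e1 : f (lc f (y.1, 0)).1 = 0 := by simpa [lc] using hy0
  rcases lt_trichotomy y.2 0 with h | h | h
  · rw [sign_neg h]
    exact sign_neg (e1 ▸ hmono hy.2 (mem_ball_self hr) h)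
  · rw [h, sign_zero, sign_eq_zero_iff, ← e1, ← h]
  · rw [sign_pos h]
    exact sign_pos (e1 ▸ hmono (mem_ball_self hr) hy.2 h)

/-- **Local signed distance of a level set.** -/
theorem exists_level {p : ℝ × E3} (hf : ∀ᶠ q in 𝓝 p, ContDiffAt ℝ ∞ f q) (hp0 : f p = 0)
    (h0 : gx f p ≠ 0) :
    ∃ (s : ℝ × E3 → ℝ) (y : ℝ × E3 → E3), Tendsto (fun q => (q.1, y q)) (𝓝 p) (𝓝 p) ∧
      ∀ᶠ q in 𝓝 p, ContDiffAt ℝ ∞ s q ∧ ‖gx s q‖ = 1 ∧
        SignType.sign (s q) = SignType.sign (f q) ∧ f (q.1, y q) = 0 ∧ ‖q.2 - y q‖ = |s q| := by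
  have hp := hf.self_of_nhds
  have hgi := hf.and (ev_gx_ne hp h0)
  have hfst : Tendsto Prod.fst (𝓝 ((p, 0) : (ℝ × E3) × ℝ)) (𝓝 p) := continuous_fst.tendsto _
  have hinj : Function.Injective (fderiv ℝ (lc f) (p, 0)) := by
    rw [injective_iff_map_eq_zero]
    intro η hη
    rw [fderiv_lc (y := (p, 0)) hp h0, Prod.mk_eq_zero, Prod.mk_eq_zero] at hη
    obtain ⟨⟨h1, h2⟩, h3⟩ := hη
    simp only [zero_smul, zero_add] at h2
    have h4 : η.1 = (0, η.1.2) := Prod.ext h1 rfl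
    rw [h4, ← inner_gx (hp.differentiableAt (by simp)), eq_neg_of_add_eq_zero_left h2,
      inner_neg_right, real_inner_smul_right, inner_gx_nx h0] at h3
    have h5 : η.2 = 0 := by simpa [h0] using h3
    rw [h5, zero_smul, add_zero] at h2
    exact Prod.ext (Prod.ext h1 h2) h5
  obtain ⟨Ψ, hΨ, hleft⟩ := exists_smooth_inv rfl (Φ := lc f) (a₀ := (p, 0))
    ((hfst.eventually hgi).mono fun y hy => cdAt_lc hy.1 hy.2) hinj
  have e0 : lc f (p, 0) = (p, 0) := by simp [lc, hp0]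
  have hΨ0 : Ψ (p, 0) = (p, 0) := by simpa [e0] using hleft.self_of_nhds
  rw [e0] at hΨ
  have hj : Tendsto (fun q : ℝ × E3 => (q, (0 : ℝ))) (𝓝 p) (𝓝 (p, 0)) :=
    (Continuous.prodMk_left 0).tendsto _
  have hc : Tendsto (fun q => Ψ (q, 0)) (𝓝 p) (𝓝 (p, 0)) :=
    (hΨ0 ▸ hΨ.self_of_nhds.1.continuousAt.tendsto).comp hj
  have hΨ' := hj.eventually hΨ
  refine ⟨fun q => (Ψ (q, 0)).2, fun q => (Ψ (q, 0)).1.2, ?_, ?_⟩
  · refine Tendsto.congr' (f₁ := fun q => (Ψ (q, 0)).1) (hΨ'.mono fun q hq => ?_) (hfst.comp hc)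
    exact Prod.ext (congrArg (fun z => z.1.1) hq.2) rfl
  filter_upwards [hj.eventually hΨ.eventually_nhds, (hfst.comp hc).eventually hgi,
    hc.eventually (ev_sign hf h0)] with q hq hq' hs
  simp only [Function.comp] at hq'
  have h1 := hq.self_of_nhds.1
  have h2 := hq.self_of_nhds.2
  have h3 : ContDiffAt ℝ ∞ (fun q => (Ψ (q, 0)).2) q :=
    (h1.comp q (contDiffAt_id.prodMk contDiffAt_const)).snd
  have e1 : (Ψ (q, 0)).1.1 = q.1 := congrArg (fun z => z.1.1) h2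
  have e2 : (Ψ (q, 0)).1.2 + (Ψ (q, 0)).2 • nx f (Ψ (q, 0)).1 = q.2 := congrArg (fun z => z.1.2) h2
  have e3 : f (Ψ (q, 0)).1 = 0 := congrArg Prod.snd h2
  refine ⟨h3, ?_, ?_, ?_, ?_⟩
  · rw [← norm_nx hq'.2]
    congr 1
    refine ext_inner_right ℝ fun v => ?_
    have d1 := (h1.differentiableAt (by simp)).hasFDerivAt
    have e4 := (((cdAt_lc hq'.1 hq'.2).differentiableAt (by simp)).hasFDerivAt.comp _ d1).unique
      ((hasFDerivAt_id _).congr_of_eventuallyEq (hq.mono fun b hb => hb.2))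
    have e5 := congrArg (fun L : (ℝ × E3) × ℝ →L[ℝ] (ℝ × E3) × ℝ => L ((0, v), 0)) e4
    simp only [ContinuousLinearMap.comp_apply, ContinuousLinearMap.id_apply] at e5
    rw [fderiv_lc hq'.1 hq'.2, Prod.mk.injEq, Prod.mk.injEq] at e5
    obtain ⟨⟨e6, e7⟩, e8⟩ := e5
    have d2 := (HasFDerivAt.comp (f := fun q : ℝ × E3 => (q, (0 : ℝ))) q d1
      (hasFDerivAt_prodMk_left q 0)).snd
    rw [inner_gx (h3.differentiableAt (by simp)),
      show fderiv ℝ (fun q => (Ψ (q, 0)).2) q = _ from d2.fderiv, ← e7]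
    rw [show (fderiv ℝ Ψ (q, 0) ((0, v), 0)).1 = (0, (fderiv ℝ Ψ (q, 0) ((0, v), 0)).1.2) from
      Prod.ext e6 rfl, ← inner_gx (hq'.1.differentiableAt (by simp))] at e8
    have e9 : ⟪nx f (Ψ (q, 0)).1, (fderiv ℝ Ψ (q, 0) ((0, v), 0)).1.2⟫ = 0 := by
      rw [nx, real_inner_smul_left, e8, mul_zero]
    simp only [inner_add_right, real_inner_smul_right, e9, inner_fderiv_nx hq'.1 hq'.2,
      real_inner_self_eq_norm_sq, norm_nx hq'.2]
    rw [e7]
    simp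
  · rw [← hs e3, h2]
  · rw [← e1]; exact e3
  · rw [← e2, add_sub_cancel_left, norm_smul, norm_nx hq'.2, mul_one, Real.norm_eq_abs]

/-- an eikonal function with feet is the distance function -/
lemma ev_infDist {Z : ℝ → Set E3} {s : ℝ × E3 → ℝ} {p : ℝ × E3} (hp : s p = 0)
    (h : ∀ᶠ q in 𝓝 p, ContDiffAt ℝ ∞ s q ∧ ‖gx s q‖ = 1 ∧ (q.2 ∈ Z q.1 → s q = 0) ∧
      ∃ y ∈ Z q.1, ‖q.2 - y‖ = |s q|) : ∀ᶠ q in 𝓝 p, infDist q.2 (Z q.1) = |s q| := by
  obtain ⟨r, hr, hb⟩ := Metric.eventually_nhds_iff_ball.1 h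
  have h1 : ∀ᶠ q in 𝓝 p, |s q| < r / 2 :=
    h.self_of_nhds.1.continuousAt.abs.eventually (gt_mem_nhds (by simpa [hp] using hr))
  filter_upwards [h1, ball_mem_nhds p (half_pos hr)] with q hq hq'
  have hq2 : q ∈ ball p r := ball_subset_ball (by linarith) hq'
  obtain ⟨y, hy, hy'⟩ := (hb q hq2).2.2.2
  rw [← ball_prod_same] at hq' hq2
  refine le_antisymm (hy' ▸ dist_eq_norm q.2 y ▸ infDist_le_dist_of_mem hy)
    ((le_infDist ⟨y, hy⟩).2 fun z hz => ?_)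
  by_cases hzb : z ∈ ball p.2 r
  · have hm : ∀ x ∈ ball p.2 r, (q.1, x) ∈ ball p r := fun x hx => by
      rw [← ball_prod_same]; exact ⟨hq2.1, hx⟩
    have := (convex_ball p.2 r).norm_image_sub_le_of_norm_fderiv_le (𝕜 := ℝ) (C := 1)
      (f := fun x => s (q.1, x))
      (fun x hx => (hasFDerivAt_slice ((hb _ (hm x hx)).1.differentiableAt (by simp))).differentiableAt)
      (fun x hx => by
        have := (hb _ (hm x hx)).2.1
        rw [gx, gradient, LinearIsometryEquiv.norm_map] at this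
        exact this.le) hzb hq2.2
    rw [(hb _ (hm z hzb)).2.2.1 hz, sub_zero, one_mul] at this
    rw [dist_eq_norm]
    exact this
  · have h2 := dist_triangle z q.2 p.2
    have h3 : dist q.2 p.2 < r / 2 := hq'.2
    rw [mem_ball, not_lt] at hzb
    rw [dist_comm]
    linarith

end Vale.Agent.P218UZ
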