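import Vale.Agent.P218UZ.Defs
import Mathlib.Analysis.InnerProductSpace.Trace
import Mathlib.Analysis.InnerProductSpace.Projection.FiniteDimensional

/-! Linear algebra: frames adapted to a unit normal, the mean curvature in an orthonormal frame,
the cross product. -/

open Set Module
open scoped RealInnerProductSpace

namespace Vale.Agent.P218UZ

/-- `e 0, e 1` is an orthonormal basis of the plane orthogonal to `n` -/
structure IsFrame (n : E3) (e : Fin 2 → E3) : Prop where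
  on : ∀ i j, ⟪e i, e j⟫ = if i = j then 1 else 0
  perp : ∀ i, ⟪n, e i⟫ = 0
  tr : ∀ A : E3 →L[ℝ] E3,
    LinearMap.trace ℝ E3 A.toLinearMap = ∑ i, ⟪e i, A (e i)⟫ + ⟪n, A n⟫

lemma exists_frame {n : E3} (hn : ‖n‖ = 1) : ∃ e, IsFrame n e := by
  have h : Orthonormal ℝ (({2} : Set (Fin 3)).domRestrict fun _ : Fin 3 => n) := by
    refine ⟨fun _ => hn, fun i j hij => (hij (Subsingleton.elim i j)).elim⟩
  obtain ⟨b, hb⟩ := h.exists_orthonormalBasis_extension_of_card_eq (by simp)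
  have h2 : b 2 = n := hb 2 rfl
  have ho := orthonormal_iff_ite.1 b.orthonormal
  refine ⟨fun i => b i.castSucc, fun i j => ?_, fun i => ?_, fun A => ?_⟩
  · rw [ho]
    simp
  · rw [← h2, ho]
    fin_cases i <;> simp
  · rw [LinearMap.trace_eq_sum_inner _ b, Fin.sum_univ_castSucc, ← h2]
    rfl

lemma exists_preimage {L : E2 →L[ℝ] E3} (hL : Function.Injective L) {n : E3} (hn : n ≠ 0)
    (h : ∀ a, ⟪n, L a⟫ = 0) {v : E3} (hv : ⟪n, v⟫ = 0) : ∃ a, L a = v := by
  have h1 : LinearMap.range L.toLinearMap ≤ (ℝ ∙ n)ᗮ := by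
    rintro _ ⟨a, rfl⟩
    exact Submodule.mem_orthogonal_singleton_iff_inner_right.2 (h a)
  have h2 : finrank ℝ (LinearMap.range L.toLinearMap) = 2 := by
    rw [LinearMap.finrank_range_of_inj hL]
    simp
  have h3 : finrank ℝ (ℝ ∙ n)ᗮ = 2 := by
    have : Fact (finrank ℝ E3 = 2 + 1) := ⟨by simp⟩
    exact Submodule.finrank_orthogonal_span_singleton hn
  have h4 := Submodule.eq_of_le_of_finrank_eq h1 (h2.trans h3.symm)
  have h5 : v ∈ LinearMap.range L.toLinearMap :=
    h4 ▸ Submodule.mem_orthogonal_singleton_iff_inner_right.2 hv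
  exact h5

lemma E2_decomp (a : E2) : a = ∑ i, a i • eb i := by
  ext j
  fin_cases j <;> simp [eb, Fin.sum_univ_two]

lemma inv_metric {G : E2 → E3} {u : E2} {a : Fin 2 → E2}
    (ha : ∀ i j, ⟪fderiv ℝ G u (a i), fderiv ℝ G u (a j)⟫ = if i = j then 1 else 0) (i j : Fin 2) :
    (metric G u)⁻¹ i j = ∑ k, a k i * a k j := by
  let P : Matrix (Fin 2) (Fin 2) ℝ := Matrix.of fun i k => a k i
  have h1 : P.transpose * metric G u * P = 1 := by
    ext k l
    rw [Matrix.one_apply, ← ha k l, E2_decomp (a k), E2_decomp (a l)]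
    simp only [Matrix.mul_apply, Matrix.transpose_apply, metric, Matrix.of_apply, P,
      Fin.sum_univ_two, map_add, map_smul, inner_add_left, inner_add_right, real_inner_smul_left,
      real_inner_smul_right]
    ring
  have h2 : P * P.transpose * metric G u = 1 := by
    rw [Matrix.mul_assoc]
    exact mul_eq_one_comm.1 h1
  rw [Matrix.inv_eq_left_inv h2]
  simp [Matrix.mul_apply, P]

lemma inner_meanCurvChart {G : E2 → E3} {u : E2} {n : E3} (hn : ∀ v, ⟪n, fderiv ℝ G u v⟫ = 0)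
    {a : Fin 2 → E2}
    (ha : ∀ i j, ⟪fderiv ℝ G u (a i), fderiv ℝ G u (a j)⟫ = if i = j then 1 else 0) :
    ⟪n, meanCurvChart G u⟫ = ∑ k, ⟪n, fderiv ℝ (fderiv ℝ G) u (a k) (a k)⟫ := by
  have hm : n ∈ (LinearMap.range (fderiv ℝ G u).toLinearMap)ᗮ := by
    rintro _ ⟨v, rfl⟩
    rw [real_inner_comm]
    exact hn v
  have hp : ∀ y : E3,
      ⟪n, (LinearMap.range (fderiv ℝ G u).toLinearMap)ᗮ.starProjection y⟫ = ⟪n, y⟫ := fun y => by
    rw [← Submodule.inner_starProjection_left_eq_right, Submodule.starProjection_eq_self_iff.2 hm]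
  have hk : ∀ k, ⟪n, fderiv ℝ (fderiv ℝ G) u (a k) (a k)⟫
      = ∑ i, ∑ j, a k i * a k j * ⟪n, fderiv ℝ (fderiv ℝ G) u (eb i) (eb j)⟫ := fun k => by
    conv_lhs => rw [E2_decomp (a k)]
    simp only [Fin.sum_univ_two, map_add, map_smul, add_apply,
      smul_apply, inner_add_right, real_inner_smul_right]
    ring
  simp only [meanCurvChart, inner_add_right, real_inner_smul_right, hp, inv_metric ha, hk,
    Fin.sum_univ_two]
  ring

/-- the mean curvature in an orthonormal frame of the tangent plane -/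
lemma exists_lift_frame {G : E2 → E3} {u : E2} (hL : Function.Injective (fderiv ℝ G u)) {n : E3}
    (hn1 : ‖n‖ = 1) (hn : ∀ v, ⟪n, fderiv ℝ G u v⟫ = 0) {e : Fin 2 → E3} (he : IsFrame n e) :
    ∃ a : Fin 2 → E2, (∀ k, fderiv ℝ G u (a k) = e k) ∧
      ⟪n, meanCurvChart G u⟫ = ∑ k, ⟪n, fderiv ℝ (fderiv ℝ G) u (a k) (a k)⟫ := by
  have h0 : n ≠ 0 := fun h => by simp [h] at hn1
  choose a ha using fun k => exists_preimage hL h0 hn (he.perp k)
  exact ⟨a, ha, inner_meanCurvChart hn fun i j => by rw [ha, ha, he.on]⟩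

/-- the cross product -/
noncomputable def cross (a b : E3) : E3 :=
  !₂[a 1 * b 2 - a 2 * b 1, a 2 * b 0 - a 0 * b 2, a 0 * b 1 - a 1 * b 0]

lemma inner3 (a b : E3) : ⟪a, b⟫ = a 0 * b 0 + a 1 * b 1 + a 2 * b 2 := by
  simp [PiLp.inner_apply, Fin.sum_univ_three, mul_comm]

lemma inner_cross_left (a b : E3) : ⟪cross a b, a⟫ = 0 := by
  simp [inner3, cross]; ring

lemma inner_cross_right (a b : E3) : ⟪cross a b, b⟫ = 0 := by
  simp [inner3, cross]; ring

lemma cross_ne_zero {L : E2 →L[ℝ] E3} (hL : Function.Injective L) :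
    cross (L (eb 0)) (L (eb 1)) ≠ 0 := by
  intro h
  set a := L (eb 0)
  set b := L (eb 1)
  have h0 : a 1 * b 2 - a 2 * b 1 = 0 := by simpa [cross] using congrArg (fun v : E3 => v 0) h
  have h1 : a 2 * b 0 - a 0 * b 2 = 0 := by simpa [cross] using congrArg (fun v : E3 => v 1) h
  have h2 : a 0 * b 1 - a 1 * b 0 = 0 := by simpa [cross] using congrArg (fun v : E3 => v 2) h
  have hz : ∀ k : Fin 3, b k • eb 0 - a k • eb 1 = 0 := fun k => by
    apply hL
    rw [map_sub, map_smul, map_smul, map_zero]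
    ext j
    change b k * a j - a k * b j = 0
    fin_cases k <;> fin_cases j <;> simp <;> linarith
  have ha : a = 0 := by
    ext k
    simpa [eb] using congrArg (fun v : E2 => v 1) (hz k)
  have h3 : eb 0 = 0 := hL (ha.trans (map_zero L).symm)
  simpa [eb] using congrArg (fun v : E2 => v 0) h3

lemma inner_cross (L : E2 →L[ℝ] E3) (v : E2) : ⟪cross (L (eb 0)) (L (eb 1)), L v⟫ = 0 := by
  rw [E2_decomp v]
  simp [Fin.sum_univ_two, inner_add_right, real_inner_smul_right, inner_cross_left,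
    inner_cross_right]

/-- a vector orthogonal to the range of `L` is a multiple of the unit normal -/
lemma eq_smul_of_perp {L : E2 →L[ℝ] E3} (hL : Function.Injective L) {n : E3} (hn1 : ‖n‖ = 1)
    (hn : ∀ a, ⟪n, L a⟫ = 0) {y : E3} (hy : ∀ a, ⟪y, L a⟫ = 0) : y = ⟪n, y⟫ • n := by
  have h0 : n ≠ 0 := fun h => by simp [h] at hn1
  have h1 : ⟪n, y - ⟪n, y⟫ • n⟫ = 0 := by
    rw [inner_sub_right, real_inner_smul_right, real_inner_self_eq_norm_sq, hn1]; ring
  obtain ⟨a, ha⟩ := exists_preimage hL h0 hn h1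
  have h2 : ⟪y - ⟪n, y⟫ • n, y - ⟪n, y⟫ • n⟫ = 0 := by
    conv_lhs => rw [← ha]
    conv_lhs => enter [2]; rw [ha]
    rw [inner_sub_left, real_inner_smul_left, hy, hn]; ring
  exact sub_eq_zero.1 (inner_self_eq_zero.1 h2)

end Vale.Agent.P218UZ
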