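import Vale.Agent.P218UZ.Lin
import Mathlib.Analysis.Calculus.InverseFunctionTheorem.ContDiff
import Mathlib.Analysis.Calculus.Gradient.Basic
import Mathlib.Analysis.InnerProductSpace.Calculus
import Mathlib.Analysis.Normed.Module.FiniteDimension

/-! The local signed distance function of a moving parametrised surface. -/

open Set Filter Topology Module
open scoped RealInnerProductSpace ContDiff

namespace Vale.Agent.P218UZ

/-- smooth local inverse -/
lemma exists_smooth_inv {A B : Type*} [NormedAddCommGroup A] [NormedSpace ℝ A]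
    [FiniteDimensional ℝ A] [NormedAddCommGroup B] [NormedSpace ℝ B] [FiniteDimensional ℝ B]
    (hd : finrank ℝ A = finrank ℝ B) {Φ : A → B} {a₀ : A}
    (h : ∀ᶠ a in 𝓝 a₀, ContDiffAt ℝ ∞ Φ a) (hi : Function.Injective (fderiv ℝ Φ a₀)) :
    ∃ Ψ : B → A, (∀ᶠ b in 𝓝 (Φ a₀), ContDiffAt ℝ ∞ Ψ b ∧ Φ (Ψ b) = b) ∧
      ∀ᶠ a in 𝓝 a₀, Ψ (Φ a) = a := by
  have : CompleteSpace A := FiniteDimensional.complete ℝ A
  have hE : ∀ a, ContDiffAt ℝ ∞ Φ a → Function.Injective (fderiv ℝ Φ a) →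
      ∃ e : A ≃L[ℝ] B, HasFDerivAt Φ (e : A →L[ℝ] B) a := fun a ha hi =>
    ⟨((fderiv ℝ Φ a).toLinearMap.linearEquivOfInjective hi hd).toContinuousLinearEquiv, by
      convert (ha.differentiableAt (by simp)).hasFDerivAt using 1
      rfl⟩
  have h0 := h.self_of_nhds
  obtain ⟨e, he⟩ := hE a₀ h0 hi
  let P := h0.toOpenPartialHomeomorph Φ he (by simp)
  have hs : a₀ ∈ P.source := h0.mem_toOpenPartialHomeomorph_source he (by simp)
  have ht : Φ a₀ ∈ P.target := P.map_source hs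
  have hi' : ∀ᶠ a in 𝓝 a₀, Function.Injective (fderiv ℝ Φ a) :=
    (h0.fderiv_right (m := 0) (by simp)).continuousAt.eventually
      (ContinuousLinearMap.isOpen_injective.mem_nhds hi)
  have hc : Tendsto P.symm (𝓝 (Φ a₀)) (𝓝 a₀) := P.tendsto_symm hs
  refine ⟨P.symm, ?_, P.eventually_left_inverse hs⟩
  filter_upwards [P.open_target.mem_nhds ht, hc.eventually h, hc.eventually hi'] with b hb h1 h2
  obtain ⟨e', he'⟩ := hE _ h1 h2
  exact ⟨P.contDiffAt_symm hb he' h1, P.right_inv hb⟩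

lemma cdAt_gradient {f : E3 → ℝ} {x : E3} (hf : ContDiffAt ℝ 2 f x) :
    ContDiffAt ℝ 1 (gradient f) x :=
  (InnerProductSpace.toDual ℝ E3).symm.contDiff.contDiffAt.comp x
    (hf.fderiv_right (m := 1) (by norm_num))

/-- the Laplacian of an eikonal function on its zero set is minus the mean curvature -/
lemma lap_eq_neg {f : E3 → ℝ} {g : E2 → E3} {u : E2} (hf : ContDiffAt ℝ 2 f (g u))
    (hg : ContDiffAt ℝ 2 g u) (h0 : ∀ᶠ v in 𝓝 u, f (g v) = 0)
    (h1 : ∀ᶠ x in 𝓝 (g u), ‖gradient f x‖ = 1) (hL : Function.Injective (fderiv ℝ g u)) :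
    LinearMap.trace ℝ E3 (fderiv ℝ (gradient f) (g u)).toLinearMap
      = -⟪gradient f (g u), meanCurvChart g u⟫ := by
  have dG := ((cdAt_gradient hf).differentiableAt one_ne_zero).hasFDerivAt
  have dg := (hg.differentiableAt (by norm_num)).hasFDerivAt
  have ddg := ((hg.fderiv_right (m := 1) (by norm_num)).differentiableAt one_ne_zero).hasFDerivAt
  have hp : ∀ᶠ v in 𝓝 u, ∀ a, ⟪gradient f (g v), fderiv ℝ g v a⟫ = 0 := by
    filter_upwards [h0.eventually_nhds, hg.eventually (by simp),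
      hg.continuousAt.eventually (hf.eventually (by simp))] with v hv hgv hfv a
    have e := ((hfv.differentiableAt (by norm_num)).hasFDerivAt.comp v
      (hgv.differentiableAt (by norm_num)).hasFDerivAt).unique
      ((hasFDerivAt_const (0 : ℝ) v).congr_of_eventuallyEq hv)
    rw [inner_gradient_left]
    exact congrArg (fun L : E2 →L[ℝ] ℝ => L a) e
  obtain ⟨e, he⟩ := exists_frame h1.self_of_nhds
  obtain ⟨a, ha, hH⟩ := exists_lift_frame hL h1.self_of_nhds hp.self_of_nhds he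
  have hn : ⟪gradient f (g u), fderiv ℝ (gradient f) (g u) (gradient f (g u))⟫ = 0 := by
    have e1 := dG.norm_sq.unique ((hasFDerivAt_const (1 : ℝ) (g u)).congr_of_eventuallyEq
      (h1.mono fun y hy => by simp [hy]))
    simpa using congrArg (fun L : E3 →L[ℝ] ℝ => L (gradient f (g u))) e1
  have hk : ∀ k, ⟪e k, fderiv ℝ (gradient f) (g u) (e k)⟫
      = -⟪gradient f (g u), fderiv ℝ (fderiv ℝ g) u (a k) (a k)⟫ := fun k => by
    have e1 := ((dG.comp u dg).inner ℝ (ddg.clm_apply (hasFDerivAt_const (a k) u))).unique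
      ((hasFDerivAt_const (0 : ℝ) u).congr_of_eventuallyEq (hp.mono fun v hv => hv (a k)))
    have e2 := congrArg (fun L : E2 →L[ℝ] ℝ => L (a k)) e1
    simp [ha] at e2
    rw [real_inner_comm, inner_gradient_left]
    linarith
  rw [he.tr, hn, hH]
  simp [hk]

/-- the spatial derivative of a moving parametrisation -/
noncomputable def dS (G : ℝ × E2 → E3) (z : ℝ × E2) : E2 →L[ℝ] E3 :=
  (fderiv ℝ G z).comp (ContinuousLinearMap.inr ℝ ℝ E2)

lemma hasFDerivAt_sec {G : ℝ × E2 → E3} {z : ℝ × E2} (h : DifferentiableAt ℝ G z) :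
    HasFDerivAt (fun u => G (z.1, u)) (dS G z) z.2 :=
  h.hasFDerivAt.comp z.2 (hasFDerivAt_prodMk_right z.1 z.2)

/-- the unit normal of a moving parametrisation -/
noncomputable def nG (G : ℝ × E2 → E3) (z : ℝ × E2) : E3 :=
  ‖cross (dS G z (eb 0)) (dS G z (eb 1))‖⁻¹ • cross (dS G z (eb 0)) (dS G z (eb 1))

lemma norm_nG {G : ℝ × E2 → E3} {z : ℝ × E2} (h : Function.Injective (dS G z)) :
    ‖nG G z‖ = 1 := by
  rw [nG, norm_smul, norm_inv, norm_norm, inv_mul_cancel₀ (norm_ne_zero_iff.2 (cross_ne_zero h))]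

lemma inner_nG (G : ℝ × E2 → E3) (z : ℝ × E2) (a : E2) : ⟪nG G z, dS G z a⟫ = 0 := by
  rw [nG, real_inner_smul_left, inner_cross, mul_zero]

lemma cdAt_dS {G : ℝ × E2 → E3} {z : ℝ × E2} (h : ContDiffAt ℝ ∞ G z) :
    ContDiffAt ℝ ∞ (dS G) z :=
  (h.fderiv_right (m := ∞) (by simp)).clm_comp contDiffAt_const

lemma contDiff_cross : ContDiff ℝ ∞ fun p : E3 × E3 => cross p.1 p.2 := by
  rw [contDiff_euclidean]
  intro i
  fin_cases i <;> simp [cross] <;> fun_prop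

lemma cdAt_nG {G : ℝ × E2 → E3} {z : ℝ × E2} (h : ContDiffAt ℝ ∞ G z)
    (hi : Function.Injective (dS G z)) : ContDiffAt ℝ ∞ (nG G) z := by
  have h1 : ContDiffAt ℝ ∞ (fun z => cross (dS G z (eb 0)) (dS G z (eb 1))) z :=
    contDiff_cross.contDiffAt.comp z
      (((cdAt_dS h).clm_apply contDiffAt_const).prodMk ((cdAt_dS h).clm_apply contDiffAt_const))
  exact ((h1.norm ℝ (cross_ne_zero hi)).inv (norm_ne_zero_iff.2 (cross_ne_zero hi))).smul h1

lemma fderiv_split (G : ℝ × E2 → E3) (z ζ : ℝ × E2) :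
    fderiv ℝ G z ζ = ζ.1 • fderiv ℝ G z (1, 0) + dS G z ζ.2 := by
  rw [← map_smul, dS, ContinuousLinearMap.comp_apply, ← map_add]
  simp

/-- normal coordinates -/
noncomputable def nc (G : ℝ × E2 → E3) (y : (ℝ × E2) × ℝ) : ℝ × E3 := (y.1.1, G y.1 + y.2 • nG G y.1)

lemma cdAt_nc {G : ℝ × E2 → E3} {y : (ℝ × E2) × ℝ} (h : ContDiffAt ℝ ∞ G y.1)
    (hi : Function.Injective (dS G y.1)) : ContDiffAt ℝ ∞ (nc G) y :=
  contDiffAt_fst.fst.prodMk ((h.comp y contDiffAt_fst).add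
    (contDiffAt_snd.smul ((cdAt_nG h hi).comp y contDiffAt_fst)))

lemma fderiv_nc {G : ℝ × E2 → E3} {y : (ℝ × E2) × ℝ} (h : ContDiffAt ℝ ∞ G y.1)
    (hi : Function.Injective (dS G y.1)) (η : (ℝ × E2) × ℝ) :
    fderiv ℝ (nc G) y η
      = (η.1.1, fderiv ℝ G y.1 η.1 + (y.2 • fderiv ℝ (nG G) y.1 η.1 + η.2 • nG G y.1)) := by
  have h1 := (h.differentiableAt (by simp)).hasFDerivAt.comp y hasFDerivAt_fst
  have h2 := ((cdAt_nG h hi).differentiableAt (by simp)).hasFDerivAt.comp y hasFDerivAt_fst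
  have h3 := (hasFDerivAt_fst (𝕜 := ℝ) (p := y)).fst.prodMk (h1.add (hasFDerivAt_snd.smul h2))
  rw [show fderiv ℝ (nc G) y = _ from h3.fderiv]
  simp

lemma ev_inj {G : ℝ × E2 → E3} {z : ℝ × E2} (h : ContDiffAt ℝ ∞ G z)
    (hi : Function.Injective (dS G z)) : ∀ᶠ z' in 𝓝 z, Function.Injective (dS G z') :=
  (cdAt_dS h).continuousAt.eventually (ContinuousLinearMap.isOpen_injective.mem_nhds hi)

lemma inner_fderiv_nG {G : ℝ × E2 → E3} {z : ℝ × E2} (h : ContDiffAt ℝ ∞ G z)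
    (hi : Function.Injective (dS G z)) (ζ : ℝ × E2) : ⟪nG G z, fderiv ℝ (nG G) z ζ⟫ = 0 := by
  have e1 := ((cdAt_nG h hi).differentiableAt (by simp)).hasFDerivAt.norm_sq.unique
    ((hasFDerivAt_const (1 : ℝ) z).congr_of_eventuallyEq
      ((ev_inj h hi).mono fun y hy => by simp [norm_nG hy]))
  simpa using congrArg (fun L : ℝ × E2 →L[ℝ] ℝ => L ζ) e1

/-- **Local signed distance.** -/
theorem exists_loc {G : ℝ × E2 → E3} {z₀ : ℝ × E2} (hG : ∀ᶠ z in 𝓝 z₀, ContDiffAt ℝ ∞ G z)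
    (hi : Function.Injective (dS G z₀))
    (hfl : ∀ n : E3, (∀ a, ⟪n, dS G z₀ a⟫ = 0) →
      ⟪n, fderiv ℝ G z₀ (1, 0)⟫ = ⟪n, meanCurvChart (fun u => G (z₀.1, u)) z₀.2⟫) :
    ∃ s : ℝ × E3 → ℝ,
      (∀ᶠ y in 𝓝 (z₀.1, G z₀), ContDiffAt ℝ ∞ s y ∧ ‖gradient (fun x => s (y.1, x)) y.2‖ = 1) ∧
      (∀ᶠ p : (ℝ × E2) × E3 in 𝓝 (z₀, G z₀), (∀ a, ⟪p.2 - G p.1, dS G p.1 a⟫ = 0) →
        |s (p.1.1, p.2)| = ‖p.2 - G p.1‖) ∧
      fderiv ℝ s (z₀.1, G z₀) (1, 0) =
        LinearMap.trace ℝ E3 (fderiv ℝ (gradient fun x => s (z₀.1, x)) (G z₀)).toLinearMap := by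
  have hG0 := hG.self_of_nhds
  have hgi := hG.and (ev_inj hG0 hi)
  have hf : Tendsto Prod.fst (𝓝 ((z₀, 0) : (ℝ × E2) × ℝ)) (𝓝 z₀) := continuous_fst.tendsto _
  have hinj : Function.Injective (fderiv ℝ (nc G) (z₀, 0)) := by
    rw [injective_iff_map_eq_zero]
    intro η hη
    rw [fderiv_nc (y := (z₀, 0)) hG0 hi, Prod.mk_eq_zero, fderiv_split] at hη
    obtain ⟨h1, h2⟩ := hη
    simp only [h1, zero_smul, zero_add] at h2
    have h3 : η.2 = 0 := by
      have := congrArg (fun v => ⟪nG G z₀, v⟫) h2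
      simpa [inner_add_right, inner_nG, real_inner_smul_right, norm_nG hi] using this
    rw [h3, zero_smul, add_zero] at h2
    exact Prod.ext (Prod.ext h1 (hi (h2.trans (map_zero _).symm))) h3
  obtain ⟨Ψ, hΨ, hleft⟩ := exists_smooth_inv (by simp) (Φ := nc G) (a₀ := (z₀, 0))
    ((hf.eventually hgi).mono fun y hy => cdAt_nc hy.1 hy.2) hinj
  have e0 : nc G (z₀, 0) = (z₀.1, G z₀) := by simp [nc]
  have hΨ0 : Ψ (z₀.1, G z₀) = (z₀, 0) := e0 ▸ hleft.self_of_nhds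
  rw [e0] at hΨ
  have hc : Tendsto Ψ (𝓝 (z₀.1, G z₀)) (𝓝 (z₀, 0)) := hΨ0 ▸ hΨ.self_of_nhds.1.continuousAt.tendsto
  let s : ℝ × E3 → ℝ := fun y => (Ψ y).2
  have hD : ∀ᶠ y in 𝓝 (z₀.1, G z₀), ContDiffAt ℝ ∞ s y ∧ ‖nG G (Ψ y).1‖ = 1 ∧ ∀ η : ℝ × E3,
      fderiv ℝ s y η = ⟪nG G (Ψ y).1, η.2⟫ - η.1 * ⟪nG G (Ψ y).1, fderiv ℝ G (Ψ y).1 (1, 0)⟫ := by
    filter_upwards [hΨ.eventually_nhds, (hf.comp hc).eventually hgi] with y hy hy'
    have h1 := hy.self_of_nhds.1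
    refine ⟨h1.snd, norm_nG hy'.2, fun η => ?_⟩
    have d1 := (h1.differentiableAt (by simp)).hasFDerivAt
    have e1 := (((cdAt_nc hy'.1 hy'.2).differentiableAt (by simp)).hasFDerivAt.comp y d1).unique
      ((hasFDerivAt_id y).congr_of_eventuallyEq (hy.mono fun b hb => hb.2))
    have e2 := congrArg (fun L : ℝ × E3 →L[ℝ] ℝ × E3 => L η) e1
    simp only [ContinuousLinearMap.comp_apply, ContinuousLinearMap.id_apply] at e2
    rw [fderiv_nc hy'.1 hy'.2, fderiv_split] at e2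
    have e3 : fderiv ℝ s y η = (fderiv ℝ Ψ y η).2 := by rw [d1.snd.fderiv]; rfl
    have e4 := congrArg (fun v : ℝ × E3 => ⟪nG G (Ψ y).1, v.2⟫) e2
    have e5 := congrArg Prod.fst e2
    simp only [Function.comp] at hy'
    simp only [inner_add_right, real_inner_smul_right, inner_nG, inner_fderiv_nG hy'.1 hy'.2,
      real_inner_self_eq_norm_sq, norm_nG hy'.2] at e4
    simp only at e5
    rw [e3, ← e4, e5]
    ring
  have hgr : ∀ᶠ y in 𝓝 (z₀.1, G z₀), gradient (fun x => s (y.1, x)) y.2 = nG G (Ψ y).1 := by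
    filter_upwards [hD] with y hy
    refine ext_inner_right ℝ fun v => ?_
    have d1 := HasFDerivAt.comp (f := fun x => (y.1, x)) y.2
      (hy.1.differentiableAt (by simp)).hasFDerivAt (hasFDerivAt_prodMk_right y.1 y.2)
    rw [inner_gradient_left, show fderiv ℝ (fun x => s (y.1, x)) y.2 = _ from d1.fderiv]
    simp [hy.2.2]
  have hA : ∀ᶠ y in 𝓝 (z₀.1, G z₀),
      ContDiffAt ℝ ∞ s y ∧ ‖gradient (fun x => s (y.1, x)) y.2‖ = 1 := by
    filter_upwards [hD, hgr] with y hy hy'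
    exact ⟨hy.1, hy' ▸ hy.2.1⟩
  refine ⟨s, hA, ?_, ?_⟩
  · have hn := (cdAt_nG hG0 hi).continuousAt
    have hg := hG0.continuousAt
    have h1 : ContinuousAt (fun p : (ℝ × E2) × E3 => (p.1, ⟪nG G p.1, p.2 - G p.1⟫)) (z₀, G z₀) :=
      continuousAt_fst.prodMk ((hn.comp_of_eq continuousAt_fst rfl).inner
        (continuousAt_snd.sub (hg.comp_of_eq continuousAt_fst rfl)))
    have h2 := h1.tendsto
    simp only [sub_self, inner_zero_right] at h2
    filter_upwards [h2.eventually hleft, (hf.comp h2).eventually hgi] with p hp hp' hperp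
    have e1 := eq_smul_of_perp hp'.2 (norm_nG hp'.2) (inner_nG G _) hperp
    simp only [Function.comp] at e1 hp'
    have e2 : nc G (p.1, ⟪nG G p.1, p.2 - G p.1⟫) = (p.1.1, p.2) := by
      simp only [nc, ← e1]
      simp
    rw [e2] at hp
    change |(Ψ _).2| = _
    rw [hp]
    conv_rhs => rw [e1, norm_smul, norm_nG hp'.2, mul_one, Real.norm_eq_abs]
  · have hx : Tendsto (fun x => (z₀.1, x)) (𝓝 (G z₀)) (𝓝 (z₀.1, G z₀)) :=
      (Continuous.prodMk_right z₀.1).tendsto _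
    have hu : Tendsto (fun u => (((z₀.1, u), 0) : (ℝ × E2) × ℝ)) (𝓝 z₀.2) (𝓝 (z₀, 0)) :=
      ((Continuous.prodMk_right z₀.1).prodMk continuous_const).tendsto _
    have hd := hasFDerivAt_sec (hG0.differentiableAt (by simp))
    have h1 := lap_eq_neg (f := fun x => s (z₀.1, x)) (g := fun u => G (z₀.1, u)) (u := z₀.2)
      ((hA.self_of_nhds.1.of_le (by norm_cast)).comp _ (contDiffAt_const.prodMk contDiffAt_id))
      ((hG0.of_le (by norm_cast)).comp _ (contDiffAt_const.prodMk contDiffAt_id))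
      ((hu.eventually hleft).mono fun v hv => by
        have : nc G ((z₀.1, v), 0) = (z₀.1, G (z₀.1, v)) := by simp [nc]
        change (Ψ _).2 = 0
        rw [← this, hv])
      ((hx.eventually hA).mono fun x hx => hx.2) (hd.fderiv ▸ hi)
    have h2 := hgr.self_of_nhds
    simp only [hΨ0] at h2
    rw [h1, hD.self_of_nhds.2.2, h2, hΨ0, ← hfl _ (inner_nG G z₀)]
    simp

end Vale.Agent.P218UZ
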